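import Mathlib

/-!
Integer approximations of `N * √3 ^ e * |cos (k π / 8)|`, and the sign of `cos (k π / 8)`.
-/

namespace Vale.Agent.P370.H195

/-- Integer square of the approximated number. -/
def sqApx (e k N : ℕ) : ℕ :=
  let M := 3 ^ e * N ^ 2
  if k % 8 = 0 then M
  else if k % 8 = 4 then 0
  else if k % 8 = 2 ∨ k % 8 = 6 then 2 * M / 4
  else if k % 8 = 1 ∨ k % 8 = 7 then (2 * M + Nat.sqrt (2 * M ^ 2)) / 4
  else (2 * M - Nat.sqrt (2 * M ^ 2)) / 4

/-- Integer approximation of `N * √3 ^ e * |cos (k π / 8)|`. -/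
def apx (e k N : ℕ) : ℕ := Nat.sqrt (sqApx e k N)

/-- The sign of `cos (k π / 8)`: `true` = negative. -/
def neg (k : ℕ) : Bool := decide (4 ≤ k % 16 ∧ k % 16 < 12)

theorem cos_mod16 (k : ℕ) : Real.cos (k * Real.pi / 8) = Real.cos ((k % 16 : ℕ) * Real.pi / 8) := by
  conv_lhs => rw [← Nat.div_add_mod k 16]
  have h : (((16 * (k / 16) + k % 16 : ℕ) : ℝ)) * Real.pi / 8 =
      (k % 16 : ℕ) * Real.pi / 8 + ((k / 16 : ℕ) : ℝ) * (2 * Real.pi) := by
    push_cast; ring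
  rw [h, Real.cos_add_nat_mul_two_pi]

theorem neg_iff (k : ℕ) (h : neg k = true) : Real.cos (k * Real.pi / 8) ≤ 0 := by
  rw [cos_mod16]
  unfold neg at h
  rw [decide_eq_true_eq] at h
  obtain ⟨h1, h2⟩ := h
  have h1' : (4 : ℝ) ≤ (k % 16 : ℕ) := by exact_mod_cast h1
  have h2' : ((k % 16 : ℕ) : ℝ) ≤ 11 := by
    have : k % 16 ≤ 11 := by omega
    exact_mod_cast this
  have hpi := Real.pi_pos
  apply Real.cos_nonpos_of_pi_div_two_le_of_le
  · nlinarith
  · nlinarith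

theorem not_neg (k : ℕ) (h : neg k = false) : 0 ≤ Real.cos (k * Real.pi / 8) := by
  rw [cos_mod16]
  unfold neg at h
  rw [decide_eq_false_iff_not, not_and_or, not_le, not_lt] at h
  have hpi := Real.pi_pos
  rcases h with h | h
  · have h' : ((k % 16 : ℕ) : ℝ) ≤ 3 := by
      have : k % 16 ≤ 3 := by omega
      exact_mod_cast this
    have h0 : (0 : ℝ) ≤ (k % 16 : ℕ) := Nat.cast_nonneg _
    apply Real.cos_nonneg_of_neg_pi_div_two_le_of_le
    · nlinarith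
    · nlinarith
  · have h' : (12 : ℝ) ≤ ((k % 16 : ℕ) : ℝ) := by exact_mod_cast h
    have h16 : k % 16 < 16 := Nat.mod_lt _ (by norm_num)
    have h0 : ((k % 16 : ℕ) : ℝ) ≤ 16 := by
      have : k % 16 ≤ 16 := by omega
      exact_mod_cast this
    rw [← Real.cos_sub_two_pi]
    apply Real.cos_nonneg_of_neg_pi_div_two_le_of_le
    · nlinarith
    · nlinarith

theorem cos_quarter (r : ℕ) (hr : r < 8) : Real.cos (r * Real.pi / 4) =
    if r = 0 then 1 else if r = 4 then -1 else if r = 2 ∨ r = 6 then 0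
    else if r = 1 ∨ r = 7 then √2 / 2 else -(√2 / 2) := by
  have h1 : Real.cos (Real.pi / 4) = √2 / 2 := Real.cos_pi_div_four
  interval_cases r
  · simp
  · norm_num [Real.cos_pi_div_four]
  · have : ((2 : ℕ) : ℝ) * Real.pi / 4 = Real.pi / 2 := by push_cast; ring
    rw [this, Real.cos_pi_div_two]; norm_num
  · have : ((3 : ℕ) : ℝ) * Real.pi / 4 = Real.pi - Real.pi / 4 := by push_cast; ring
    rw [this, Real.cos_pi_sub, h1]; norm_num
  · have : ((4 : ℕ) : ℝ) * Real.pi / 4 = Real.pi := by push_cast; ring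
    rw [this, Real.cos_pi]; norm_num
  · have : ((5 : ℕ) : ℝ) * Real.pi / 4 = Real.pi / 4 + Real.pi := by push_cast; ring
    rw [this, Real.cos_add_pi, h1]; norm_num
  · have : ((6 : ℕ) : ℝ) * Real.pi / 4 = Real.pi / 2 + Real.pi := by push_cast; ring
    rw [this, Real.cos_add_pi, Real.cos_pi_div_two]; norm_num
  · have : ((7 : ℕ) : ℝ) * Real.pi / 4 = 2 * Real.pi - Real.pi / 4 := by push_cast; ring
    rw [this, Real.cos_two_pi_sub, h1]; norm_num

theorem cos_sq_eq (k : ℕ) : Real.cos (k * Real.pi / 8) ^ 2 =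
    1 / 2 + (if k % 8 = 0 then 1 else if k % 8 = 4 then -1 else if k % 8 = 2 ∨ k % 8 = 6 then 0
    else if k % 8 = 1 ∨ k % 8 = 7 then √2 / 2 else -(√2 / 2)) / 2 := by
  rw [← cos_quarter (k % 8) (Nat.mod_lt _ (by norm_num)), Real.cos_sq]
  have h : Real.cos (2 * (k * Real.pi / 8)) = Real.cos ((k % 8 : ℕ) * Real.pi / 4) := by
    conv_lhs => rw [← Nat.div_add_mod k 8]
    have h : 2 * ((((8 * (k / 8) + k % 8 : ℕ) : ℝ)) * Real.pi / 8) =
        (k % 8 : ℕ) * Real.pi / 4 + ((k / 8 : ℕ) : ℝ) * (2 * Real.pi) := by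
      push_cast; ring
    rw [h, Real.cos_add_nat_mul_two_pi]
  rw [h]

theorem natSqrt_le (v : ℕ) : (Nat.sqrt v : ℝ) ≤ √v := Real.nat_sqrt_le_real_sqrt

theorem lt_natSqrt (v : ℕ) : √v ≤ (Nat.sqrt v : ℝ) + 1 := Real.real_sqrt_le_nat_sqrt_succ

theorem div_bounds (a b : ℕ) (hb : 0 < b) : (a : ℝ) / b - 1 ≤ ((a / b : ℕ) : ℝ) ∧
    ((a / b : ℕ) : ℝ) ≤ (a : ℝ) / b := by
  refine ⟨?_, Nat.cast_div_le⟩
  have h : a < b * (a / b + 1) := Nat.lt_mul_div_succ a hb
  have h' : (a : ℝ) < b * ((a / b : ℕ) + 1) := by exact_mod_cast h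
  have hb' : (0 : ℝ) < b := by exact_mod_cast hb
  rw [sub_le_iff_le_add, div_le_iff₀ hb']
  nlinarith

theorem sqApx_spec (e k N : ℕ) :
    |(sqApx e k N : ℝ) - 3 ^ e * N ^ 2 * Real.cos (k * Real.pi / 8) ^ 2| ≤ 2 := by
  rw [cos_sq_eq]
  unfold sqApx
  set M := 3 ^ e * N ^ 2 with hM
  have hMr : (M : ℝ) = 3 ^ e * N ^ 2 := by rw [hM]; push_cast; ring
  rw [← hMr]
  have hM0 : (0 : ℝ) ≤ M := Nat.cast_nonneg _
  have hs2 : √(((2 * M ^ 2 : ℕ) : ℝ)) = √2 * M := by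
    push_cast
    rw [Real.sqrt_mul (by norm_num), Real.sqrt_sq hM0]
  have hl := natSqrt_le (2 * M ^ 2)
  have hu := lt_natSqrt (2 * M ^ 2)
  rw [hs2] at hl hu
  by_cases h0 : k % 8 = 0
  · rw [if_pos h0, if_pos h0]
    have : (M : ℝ) - M * (1 / 2 + 1 / 2) = 0 := by ring
    rw [this]; norm_num
  rw [if_neg h0, if_neg h0]
  by_cases h4 : k % 8 = 4
  · rw [if_pos h4, if_pos h4]
    have : ((0 : ℕ) : ℝ) - M * (1 / 2 + -1 / 2) = 0 := by push_cast; ring
    rw [this]; norm_num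
  rw [if_neg h4, if_neg h4]
  by_cases h2 : k % 8 = 2 ∨ k % 8 = 6
  · rw [if_pos h2, if_pos h2]
    obtain ⟨h5, h6⟩ := div_bounds (2 * M) 4 (by norm_num)
    push_cast at h5 h6 ⊢
    rw [abs_le]; constructor <;> linarith
  rw [if_neg h2, if_neg h2]
  by_cases h1 : k % 8 = 1 ∨ k % 8 = 7
  · rw [if_pos h1, if_pos h1]
    obtain ⟨h5, h6⟩ := div_bounds (2 * M + Nat.sqrt (2 * M ^ 2)) 4 (by norm_num)
    push_cast at h5 h6 ⊢
    rw [abs_le]; constructor <;> linarith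
  rw [if_neg h1, if_neg h1]
  have hle : Nat.sqrt (2 * M ^ 2) ≤ 2 * M := by
    calc Nat.sqrt (2 * M ^ 2) ≤ Nat.sqrt ((2 * M) * (2 * M)) := Nat.sqrt_le_sqrt (by nlinarith)
      _ = 2 * M := Nat.sqrt_eq _
  obtain ⟨h5, h6⟩ := div_bounds (2 * M - Nat.sqrt (2 * M ^ 2)) 4 (by norm_num)
  rw [Nat.cast_sub hle] at h5 h6
  push_cast at h5 h6 ⊢
  rw [abs_le]; constructor <;> linarith

theorem apx_spec (e k N : ℕ) :
    |(apx e k N : ℝ) - N * √3 ^ e * (abs (Real.cos (k * Real.pi / 8)))| ≤ 3 := by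
  have h := sqApx_spec e k N
  set x : ℝ := N * √3 ^ e * (abs (Real.cos (k * Real.pi / 8))) with hx
  have hx0 : 0 ≤ x := by positivity
  have hx2 : x ^ 2 = 3 ^ e * N ^ 2 * Real.cos (k * Real.pi / 8) ^ 2 := by
    rw [hx, mul_pow, mul_pow, sq_abs, ← pow_mul, mul_comm e 2, pow_mul, Real.sq_sqrt (by norm_num)]
    ring
  rw [← hx2] at h
  have hl := natSqrt_le (sqApx e k N)
  have hu := lt_natSqrt (sqApx e k N)
  have hs0 : 0 ≤ √(sqApx e k N : ℝ) := Real.sqrt_nonneg _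
  have hsq : √(sqApx e k N : ℝ) ^ 2 = sqApx e k N := Real.sq_sqrt (Nat.cast_nonneg _)
  rw [abs_le] at h
  unfold apx
  have key : |√(sqApx e k N : ℝ) - x| ≤ 2 := by
    rw [abs_le]
    constructor
    · by_contra hc
      push Not at hc
      nlinarith
    · by_contra hc
      push Not at hc
      nlinarith
  rw [abs_le] at key ⊢
  constructor <;> linarith [key.1, key.2]

/-- Signed approximation. -/
theorem apx_signed (e k N : ℕ) :
    |(if neg k then -(apx e k N : ℝ) else (apx e k N : ℝ)) -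
      N * √3 ^ e * Real.cos (k * Real.pi / 8)| ≤ 3 := by
  have h := apx_spec e k N
  by_cases hk : neg k = true
  · rw [if_pos hk]
    rw [abs_of_nonpos (neg_iff k hk)] at h
    rw [abs_le] at h ⊢
    constructor <;> linarith [h.1, h.2]
  · rw [if_neg hk]
    rw [abs_of_nonneg (not_neg k (by simpa using hk))] at h
    exact h

theorem apx_le (e k N : ℕ) (he : e ≤ 1) : apx e k N ≤ 2 * N + 3 := by
  have h := apx_spec e k N
  have h3 : √3 ^ e ≤ 2 := by
    interval_cases e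
    · norm_num
    · rw [pow_one, Real.sqrt_le_left (by norm_num)]
      norm_num
  have hc : |Real.cos (k * Real.pi / 8)| ≤ 1 := Real.abs_cos_le_one _
  have h0 : (0 : ℝ) ≤ N := Nat.cast_nonneg _
  have : (N : ℝ) * √3 ^ e * (abs (Real.cos (k * Real.pi / 8))) ≤ 2 * N := by
    calc (N : ℝ) * √3 ^ e * (abs (Real.cos (k * Real.pi / 8))) ≤ N * 2 * 1 := by
          gcongr
      _ = 2 * N := by ring
  rw [abs_le] at h
  have : (apx e k N : ℝ) ≤ ((2 * N + 3 : ℕ) : ℝ) := by push_cast; linarith [h.2]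
  exact_mod_cast this

end Vale.Agent.P370.H195
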