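import Vale.Agent.P370.H195.Apx
import Vale.Agent.Lib.PCP.PT.Fin
import Vale.Agent.Lib.PCP.PT.Arith

/-!
The approximations of `Apx.lean` are computable in polynomial time.
-/

namespace Vale.Agent.P370.H195

open Vale.Agent.Lib.PolyTime

variable {A : Set Word} {α : Type} [Enc α]

theorem PT_sqApx (e : ℕ) {k N : α → ℕ} (hk : PT A k) (hN : PT A N) :
    PT A (fun a => sqApx e (k a) (N a)) := by
  unfold sqApx
  have hM : PT A (fun a => 3 ^ e * N a ^ 2) := (PT.const (3 ^ e)).mul (hN.powConst 2)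
  have h8 : PT A (fun a => k a % 8) := PT.mod hk (PT.const 8)
  have hs : PT A (fun a => Nat.sqrt (2 * (3 ^ e * N a ^ 2) ^ 2)) :=
    PT.sqrt ((PT.const 2).mul (hM.powConst 2))
  refine PT.ite (p := fun a => k a % 8 = 0) (PT.eqNat h8 (PT.const 0)) hM ?_
  refine PT.ite (p := fun a => k a % 8 = 4) (PT.eqNat h8 (PT.const 4)) (PT.const 0) ?_
  refine PT.ite (p := fun a => k a % 8 = 2 ∨ k a % 8 = 6)
    (PT.decide_or (PT.eqNat h8 (PT.const 2)) (PT.eqNat h8 (PT.const 6)))
    (PT.div ((PT.const 2).mul hM) (PT.const 4)) ?_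
  refine PT.ite (p := fun a => k a % 8 = 1 ∨ k a % 8 = 7)
    (PT.decide_or (PT.eqNat h8 (PT.const 1)) (PT.eqNat h8 (PT.const 7)))
    (PT.div (((PT.const 2).mul hM).add hs) (PT.const 4)) ?_
  exact PT.div (((PT.const 2).mul hM).sub hs) (PT.const 4)

theorem PT_apx (e : ℕ) {k N : α → ℕ} (hk : PT A k) (hN : PT A N) :
    PT A (fun a => apx e (k a) (N a)) := PT.sqrt (PT_sqApx e hk hN)

theorem PT_neg {k : α → ℕ} (hk : PT A k) : PT A (fun a => neg (k a)) := by
  unfold neg
  have h16 : PT A (fun a => k a % 16) := PT.mod hk (PT.const 16)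
  exact PT.decide_and ((PT.const 4).le h16) (h16.lt (PT.const 12))

end Vale.Agent.P370.H195
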