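import Vale.Agent.P370.HeisDefs
import Vale.Agent.P333.NP.Main

/-!
Composition of the two halves of line Q.
-/

namespace Vale.Agent.P370.H195

open Vale.Agent.Lib.PolyTime Vale.Agent.P333 Vale.Agent.P370.Heis

/-- The reductions compose: if HEIS reduces to the electronic problem with exponent `c`, every
promise problem which reduces to HEIS has a polynomial-time many-one reduction to it. -/
theorem exists_reduction (h : ToContStmt) : ∃ c : ℕ, 1 ≤ c ∧ ∀ yes no : Set (List Bool),
    ReducesTo yes no → ∃ f : List Bool → Instance, PolyTime (fun w : List Bool => w) instW f ∧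
      (∀ x ∈ yes, f x ∈ P370.Yes c) ∧ (∀ x ∈ no, f x ∈ P370.No c) := by
  obtain ⟨c, g, hc, ⟨G, hG, hG'⟩, hy, hn⟩ := h
  refine ⟨c, hc, fun yes no hr => ?_⟩
  obtain ⟨f, ⟨F, hF, hF'⟩, hfy, hfn⟩ := hr
  refine ⟨fun x => g (f x), ?_, fun x hx => hy _ (hfy x hx), fun x hx => hn _ (hfn x hx)⟩
  refine tm2_of_polyTimeFun _ _ _ (fun x => G (F x)) (polyTimeFun_iff.2 (hG.comp hF)) fun x => ?_
  have : F x = enc (f x) := hF' ⟨x⟩
  rw [this]
  exact hG' _

end Vale.Agent.P370.H195
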