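import Vale.Agent.P370.HeisDefs

/-!
The list of edges of a matrix of integer weights.
-/

namespace Vale.Agent.P370.H195

open Vale.Agent.Lib.PolyTime Vale.Agent.P370.Heis

/-- The edges between `a` and `b`. -/
def edgesAt (W : ℕ → ℕ → ℕ) (a b : ℕ) : List (ℕ × ℕ) :=
  if a < b then List.replicate (W a b) (a, b) else []

/-- The list of the edges of the weight matrix `W` on `n` sites. -/
def edges (n : ℕ) (W : ℕ → ℕ → ℕ) : List (ℕ × ℕ) :=
  (List.range n).flatMap fun a => (List.range n).flatMap fun b => edgesAt W a b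

theorem mem_edges {n : ℕ} {W : ℕ → ℕ → ℕ} {e : ℕ × ℕ} (he : e ∈ edges n W) :
    e.1 < e.2 ∧ e.2 < n := by
  unfold edges at he
  simp only [List.mem_flatMap, List.mem_range] at he
  obtain ⟨a, _, b, hb, he⟩ := he
  unfold edgesAt at he
  split_ifs at he with h
  · rw [List.mem_replicate] at he
    rw [he.2]
    exact ⟨h, hb⟩
  · simp at he

theorem sum_range_map {M : Type*} [AddCommMonoid M] (n : ℕ) (f : ℕ → M) :
    ((List.range n).map f).sum = ∑ i : Fin n, f i := by
  rw [Fin.sum_univ_eq_sum_range]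
  rfl

theorem form_edges (n : ℕ) (W : ℕ → ℕ → ℕ) (χ : (Fin n → Bool) → ℝ) :
    form n (edges n W) χ = wForm (fun a b => (W a b : ℝ)) χ := by
  unfold form edges wForm
  rw [List.map_flatMap, List.flatMap_def, List.sum_flatten, List.map_map, sum_range_map]
  refine Finset.sum_congr rfl fun a _ => ?_
  simp only [Function.comp_apply]
  rw [List.map_flatMap, List.flatMap_def, List.sum_flatten, List.map_map, sum_range_map]
  refine Finset.sum_congr rfl fun b _ => ?_
  simp only [Function.comp_apply]
  unfold edgesAt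
  by_cases h : (a : ℕ) < b
  · rw [if_pos h, if_pos (by exact h), List.map_replicate, List.sum_replicate, nsmul_eq_mul]
    congr 1
    rw [dif_pos ⟨a.2, b.2⟩]
  · rw [if_neg h, if_neg (by exact h)]
    simp

theorem length_edges_ge {n : ℕ} {W : ℕ → ℕ → ℕ} {a b : ℕ} (hab : a < b) (hb : b < n) :
    W a b ≤ (edges n W).length := by
  unfold edges
  rw [List.length_flatMap]
  have h1 : ((List.range n).flatMap fun b => edgesAt W a b).length ≤
      ((List.range n).map fun a => ((List.range n).flatMap fun b => edgesAt W a b).length).sum :=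
    List.single_le_sum (by simp) _ (List.mem_map.2 ⟨a, List.mem_range.2 (hab.trans hb), rfl⟩)
  refine le_trans ?_ h1
  rw [List.length_flatMap]
  have h2 : (edgesAt W a b).length ≤ ((List.range n).map fun b => (edgesAt W a b).length).sum :=
    List.single_le_sum (by simp) _ (List.mem_map.2 ⟨b, List.mem_range.2 hb, rfl⟩)
  refine le_trans ?_ h2
  unfold edgesAt
  rw [if_pos hab, List.length_replicate]

theorem PT_edges {A : Set Word} {α : Type} [Enc α] {n : α → ℕ} {W : α → ℕ → ℕ → ℕ}
    (hn : PT A n) (hnb : PBd n) (hW : PT A (fun q : (α × ℕ) × ℕ => W q.1.1 q.1.2 q.2))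
    (hWb : PBd (fun q : (α × ℕ) × ℕ => W q.1.1 q.1.2 q.2)) :
    PT A (fun x => edges (n x) (W x)) := by
  unfold edges
  refine PT.flatMap (f := fun x a => (List.range (n x)).flatMap fun b => edgesAt (W x) a b)
    (PT.range hn hnb) ?_
  have hn' : PT A (fun p : α × ℕ => n p.1) := hn.comp PT.fst'
  have hnb' : PBd (fun p : α × ℕ => n p.1) := hnb.comp (A := A) PT.fst'
  refine PT.flatMap (f := fun (p : α × ℕ) b => edgesAt (W p.1) p.2 b) (PT.range hn' hnb') ?_
  unfold edgesAt
  have ha : PT A (fun q : (α × ℕ) × ℕ => q.1.2) := PT.fst'.snd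
  have hb : PT A (fun q : (α × ℕ) × ℕ => q.2) := PT.snd'
  exact PT.ite (p := fun q : (α × ℕ) × ℕ => q.1.2 < q.2) (ha.lt hb)
    (PT.replicate hW hWb (ha.pair hb)) (PT.const [])

end Vale.Agent.P370.H195
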