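import Vale.Agent.P370.H195.Trans
import Vale.Agent.P370.H195.Edges

/-!
The Heisenberg instance of a list of terms: energies.
-/

namespace Vale.Agent.P370.H195

open Finset
open Vale.Agent.P370.Heis
open Vale.Agent.P370.H220 (Ax Term)
open Vale.Agent.P370.H365 (fi)
open Vale.Agent.P370.H337 (JJ ww gg third hsw HL St)

/-! ### The constant -/

/-- Approximation of `48 K` times the constant of a term, without the sign. -/
def apK (K : ℕ) (t : TN) : ℕ :=
  if t.2.1.2 = 0 ∧ t.2.2.2 = 0 then apx 0 t.1.2.2 (K * (t.1.2.1 * 6)) else 0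

/-- The sign. -/
def sgK (t : TN) : Bool := t.1.1.xor (neg t.1.2.2)

/-- Positive constants. -/
def posK (K : ℕ) (ts : List TN) : ℕ := (ts.map fun t => if sgK t then 0 else apK K t).sum
/-- Negative constants. -/
def negK (K : ℕ) (ts : List TN) : ℕ := (ts.map fun t => if sgK t then apK K t else 0).sum

theorem k1_decF (m : ℕ) {Q M : ℕ} {t : TN} (ht : OkN M Q t) :
    k1 (decF m t) = if t.2.1.2 = 0 ∧ t.2.2.2 = 0 then (dec t).coef else 0 := by
  unfold k1
  have ea : (decF m t).a = axN t.2.1.2 := rfl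
  have eb : (decF m t).b = axN t.2.2.2 := rfl
  rw [ea, eb, decF_coef]
  have ha0 : axF (axN t.2.1.2) = 0 ↔ t.2.1.2 = 0 := by
    have := axF_axN_ne _ ht.a
    tauto
  have hb0 : axF (axN t.2.2.2) = 0 ↔ t.2.2.2 = 0 := by
    have := axF_axN_ne _ ht.b
    tauto
  simp only [ha0, hb0]

theorem apK_spec (K m : ℕ) {Q M : ℕ} {t : TN} (ht : OkN M Q t) :
    |(if sgK t then -(apK K t : ℝ) else apK K t) - 48 * K * k1 (decF m t)| ≤ 3 := by
  rw [k1_decF m ht]
  unfold apK
  split_ifs with h1 h2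
  · have h := apx_signed 0 t.1.2.2 (K * (t.1.2.1 * 6))
    have hval : 48 * K * (dec t).coef = (if t.1.1 then -1 else 1) *
        (((K * (t.1.2.1 * 6) : ℕ) : ℝ) * √3 ^ 0 * Real.cos (t.1.2.2 * Real.pi / 8)) := by
      unfold dec Term.coef
      simp only
      push_cast
      rw [sgQ_cast]
      rcases Bool.eq_false_or_eq_true t.1.1 with h1 | h1 <;> simp only [h1] <;> simp <;> ring
    rw [hval]
    unfold sgK at h1
    rcases Bool.eq_false_or_eq_true (neg t.1.2.2) with h3 | h3 <;>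
    rcases Bool.eq_false_or_eq_true (t.1.1) with h4 | h4 <;>
    simp only [h3, h4] at h h1 ⊢ <;>
    simp only [Bool.xor_true, Bool.xor_false, Bool.not_true, Bool.not_false, if_true, if_false,
      Bool.false_eq_true] at h h1 ⊢ <;>
    rw [abs_le] at h ⊢ <;> constructor <;> linarith [h.1, h.2]
  · simp
  · have h := apx_signed 0 t.1.2.2 (K * (t.1.2.1 * 6))
    have hval : 48 * K * (dec t).coef = (if t.1.1 then -1 else 1) *
        (((K * (t.1.2.1 * 6) : ℕ) : ℝ) * √3 ^ 0 * Real.cos (t.1.2.2 * Real.pi / 8)) := by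
      unfold dec Term.coef
      simp only
      push_cast
      rw [sgQ_cast]
      rcases Bool.eq_false_or_eq_true t.1.1 with h1 | h1 <;> simp only [h1] <;> simp <;> ring
    rw [hval]
    unfold sgK at h1
    rcases Bool.eq_false_or_eq_true (neg t.1.2.2) with h3 | h3 <;>
    rcases Bool.eq_false_or_eq_true (t.1.1) with h4 | h4 <;>
    simp only [h3, h4] at h h1 ⊢ <;>
    simp only [Bool.xor_true, Bool.xor_false, Bool.not_true, Bool.not_false, if_true, if_false,
      Bool.false_eq_true, not_true_eq_false, not_false_eq_true] at h h1 ⊢ <;>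
    rw [abs_le] at h ⊢ <;> constructor <;> linarith [h.1, h.2]
  · simp

theorem sumK_spec (K m : ℕ) {Q M : ℕ} {ts : List TN} (ht : ∀ t ∈ ts, OkN M Q t) :
    |((posK K ts : ℝ) - negK K ts) - 48 * K * kT (ts.map (decF m))| ≤ 3 * ts.length := by
  unfold posK negK kT
  induction ts with
  | nil => simp
  | cons t ts ih =>
    have h := apK_spec K m (ht t List.mem_cons_self)
    have ih := ih fun t' ht' => ht t' (List.mem_cons_of_mem _ ht')
    simp only [List.map_cons, List.sum_cons, List.length_cons]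
    generalize (ts.map fun t => if sgK t then 0 else apK K t).sum = P at ih ⊢
    generalize (ts.map fun t => if sgK t then apK K t else 0).sum = N at ih ⊢
    generalize ((ts.map (decF m)).map k1).sum = R at ih ⊢
    rw [abs_le] at ih h ⊢
    rcases Bool.eq_false_or_eq_true (sgK t) with h1 | h1 <;>
    simp only [h1] at h ⊢ <;> simp only [if_true, if_false, Bool.false_eq_true] at h ⊢ <;>
    push_cast <;> constructor <;> linarith [h.1, h.2, ih.1, ih.2]

theorem posK_le {K Q M : ℕ} {ts : List TN} (ht : ∀ t ∈ ts, OkN M Q t) :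
    posK K ts ≤ ts.length * (12 * (K * Q) + 3) := by
  unfold posK
  have := List.sum_le_card_nsmul (ts.map fun t => if sgK t then 0 else apK K t)
    (12 * (K * Q) + 3) (by
      intro z hz
      obtain ⟨t, h, rfl⟩ := List.mem_map.1 hz
      split_ifs
      · exact Nat.zero_le _
      · unfold apK
        split_ifs
        · refine (apx_le _ _ _ (by norm_num)).trans ?_
          have h2 : K * (t.1.2.1 * 6) ≤ 6 * (K * Q) := by
            calc K * (t.1.2.1 * 6) ≤ K * (Q * 6) := by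
                  gcongr
                  exact (ht t h).q
              _ = 6 * (K * Q) := by ring
          omega
        · omega)
  simpa using this

/-! ### Bounds of the couplings -/

theorem abs_mm_le (P i : Fin 3) : |H337.mm P i| ≤ 1 := by
  have h3 : √3 ≤ 2 := by
    rw [Real.sqrt_le_left (by norm_num)]; norm_num
  have h0 : 0 ≤ √3 := Real.sqrt_nonneg 3
  fin_cases P <;> fin_cases i <;> simp [H337.mm] <;> (try rw [abs_le]) <;>
    (try constructor) <;> (try norm_num) <;> (try linarith)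

theorem abs_coef_le {Q M : ℕ} {t : TN} (ht : OkN M Q t) : |(dec t).coef| ≤ Q / 8 := by
  unfold dec Term.coef
  simp only
  push_cast
  rw [abs_mul, abs_div, abs_mul, sgQ_cast]
  have h1 : |(if t.1.1 = true then (-1 : ℝ) else 1)| = 1 := by split_ifs <;> simp
  have h2 := Real.abs_cos_le_one (t.1.2.2 * Real.pi / 8)
  have hq : (t.1.2.1 : ℝ) ≤ Q := by exact_mod_cast ht.q
  rw [h1, one_mul, Nat.abs_cast]
  have h8 : |(8 : ℝ)| = 8 := by norm_num
  rw [h8]
  calc (t.1.2.1 : ℝ) / 8 * |Real.cos (t.1.2.2 * Real.pi / 8)| ≤ (Q / 8) * 1 := by gcongr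
    _ = Q / 8 := by ring

theorem abs_ww_c1_le {m Q M : ℕ} {t : TN} (ht : OkN M Q t) (q q' : Fin (m + 1)) (i j : Fin 3) :
    |ww (c1 (decF m t)) q q' i j| ≤ Q := by
  rw [ww_c1, decF_coef, abs_mul]
  have hc := abs_coef_le ht
  have h1 : ∀ P P' : Fin 3, ∀ a b : Fin 3, |2 * (H337.mm P a * H337.mm P' b)| ≤ 2 := by
    intro P P' a b
    rw [abs_mul, abs_mul]
    have h2 := abs_mm_le P a
    have h3 := abs_mm_le P' b
    have h4 : |H337.mm P a| * |H337.mm P' b| ≤ 1 * 1 :=
      mul_le_mul h2 h3 (abs_nonneg _) zero_le_one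
    have h5 : |(2 : ℝ)| = 2 := by norm_num
    rw [h5]
    linarith
  have e1 : |(if axF (decF m t).a ≠ 0 ∧ axF (decF m t).b ≠ 0 then (dec t).coef else 0)| ≤
      (Q : ℝ) / 8 := by
    split_ifs
    · exact hc
    · rw [abs_zero]; positivity
  have e2 : |(if q = (decF m t).i ∧ q' = (decF m t).j then
        2 * (H337.mm (axF (decF m t).a) i * H337.mm (axF (decF m t).b) j) else 0) +
      (if q' = (decF m t).i ∧ q = (decF m t).j then
        2 * (H337.mm (axF (decF m t).b) i * H337.mm (axF (decF m t).a) j) else 0)| ≤ 4 := by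
    refine (abs_add_le _ _).trans ?_
    have h6 : ∀ (p : Prop) [Decidable p] (x : ℝ), |x| ≤ 2 → |(if p then x else 0)| ≤ 2 := by
      intro p _ x hx
      split_ifs
      · exact hx
      · rw [abs_zero]; norm_num
    have h7 := h6 (q = (decF m t).i ∧ q' = (decF m t).j) _
      (h1 (axF (decF m t).a) (axF (decF m t).b) i j)
    have h8 := h6 (q' = (decF m t).i ∧ q = (decF m t).j) _
      (h1 (axF (decF m t).b) (axF (decF m t).a) i j)
    linarith
  calc _ ≤ (Q : ℝ) / 8 * 4 := mul_le_mul e1 e2 (abs_nonneg _) (by positivity)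
    _ ≤ Q := by
      have : (0 : ℝ) ≤ Q := Nat.cast_nonneg _
      linarith

theorem abs_gg_h1_le {m Q M : ℕ} {t : TN} (ht : OkN M Q t) (q : Fin (m + 1)) (k : Fin 3) :
    |gg (h1 1 (decF m t)) (h1 2 (decF m t)) q k| ≤ Q := by
  rw [gg_h1, decF_coef, abs_mul, abs_mul]
  have hc := abs_coef_le ht
  have e2 : |(if q = (decF m t).i ∧ axF (decF m t).a ≠ 0 ∧ axF (decF m t).b = 0 then
        H337.mm (axF (decF m t).a) k else 0) +
      (if q = (decF m t).j ∧ axF (decF m t).b ≠ 0 ∧ axF (decF m t).a = 0 then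
        H337.mm (axF (decF m t).b) k else 0)| ≤ 2 := by
    refine (abs_add_le _ _).trans ?_
    have h6 : ∀ (p : Prop) [Decidable p] (x : ℝ), |x| ≤ 1 → |(if p then x else 0)| ≤ 1 := by
      intro p _ x hx
      split_ifs
      · exact hx
      · rw [abs_zero]; norm_num
    have h7 := h6 (q = (decF m t).i ∧ axF (decF m t).a ≠ 0 ∧ axF (decF m t).b = 0) _
      (abs_mm_le (axF (decF m t).a) k)
    have h8 := h6 (q = (decF m t).j ∧ axF (decF m t).b ≠ 0 ∧ axF (decF m t).a = 0) _
      (abs_mm_le (axF (decF m t).b) k)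
    linarith
  have e3 : |-(2 / 3 : ℝ)| = 2 / 3 := by rw [abs_neg]; norm_num
  rw [e3]
  calc _ ≤ 2 / 3 * ((Q : ℝ) / 8) * 2 :=
        mul_le_mul (mul_le_mul_of_nonneg_left hc (by norm_num)) e2 (abs_nonneg _) (by positivity)
    _ ≤ Q := by
      have : (0 : ℝ) ≤ Q := Nat.cast_nonneg _
      linarith

theorem abs_sum_map_le {β : Type*} (l : List β) (f : β → ℝ) (C : ℝ) (h : ∀ b ∈ l, |f b| ≤ C) :
    |(l.map f).sum| ≤ l.length * C := by
  induction l with
  | nil => simp
  | cons b l ih =>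
    have h1 := h b List.mem_cons_self
    have h2 := ih fun b' hb' => h b' (List.mem_cons_of_mem _ hb')
    rw [List.map_cons, List.sum_cons, List.length_cons]
    refine (abs_add_le _ _).trans ?_
    push_cast
    linarith

theorem abs_ww_le {m Q M T : ℕ} {ts : List TN} (ht : ∀ t ∈ ts, OkN M Q t) (hT : ts.length ≤ T)
    (q q' : Fin (m + 1)) (i j : Fin 3) :
    |ww (cT (ts.map (decF m))) q q' i j| ≤ (T * Q : ℕ) := by
  rw [ww_cT, List.map_map]
  refine (abs_sum_map_le ts _ Q fun t h => abs_ww_c1_le (ht t h) q q' i j).trans ?_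
  push_cast
  gcongr

theorem abs_gg_le {m Q M T : ℕ} {ts : List TN} (ht : ∀ t ∈ ts, OkN M Q t) (hT : ts.length ≤ T)
    (q : Fin (m + 1)) (k : Fin 3) :
    |gg (H195.hT 1 (ts.map (decF m))) (H195.hT 2 (ts.map (decF m))) q k| ≤ (T * Q : ℕ) := by
  rw [gg_hT, List.map_map]
  refine (abs_sum_map_le ts _ Q fun t h => abs_gg_h1_le (ht t h) q k).trans ?_
  push_cast
  gcongr

/-- The bound of the weak part. -/
theorem RW_le {m Q M T J0 : ℕ} {ts : List TN} (ht : ∀ t ∈ ts, OkN M Q t) (hT : ts.length ≤ T)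
    (hJ : J0 = 2 * (T * Q)) :
    H337.RW (cT (ts.map (decF m))) (H195.hT 1 (ts.map (decF m))) (H195.hT 2 (ts.map (decF m)))
      (J0 : ℝ) ≤ (17 * (m + 1) ^ 2 * (T * Q) : ℕ) := by
  unfold H337.RW
  have e1 : (∑ q : Fin (m + 1), ∑ k : Fin 3,
      |gg (H195.hT 1 (ts.map (decF m))) (H195.hT 2 (ts.map (decF m))) q k|) ≤
      ∑ q : Fin (m + 1), ∑ k : Fin 3, ((T * Q : ℕ) : ℝ) :=
    Finset.sum_le_sum fun q _ => Finset.sum_le_sum fun k _ => abs_gg_le ht hT q k
  have e2 : (∑ q : Fin (m + 1), ∑ q' ∈ univ.erase q, ∑ i, ∑ j,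
      |(J0 : ℝ) + ww (cT (ts.map (decF m))) q q' i j|) ≤
      ∑ q : Fin (m + 1), ∑ q' : Fin (m + 1), ∑ i : Fin 3, ∑ j : Fin 3,
        ((J0 : ℝ) + ((T * Q : ℕ) : ℝ)) := by
    refine Finset.sum_le_sum fun q _ => ?_
    refine (Finset.sum_le_sum (g := fun q' => ∑ i : Fin 3, ∑ j : Fin 3,
        ((J0 : ℝ) + ((T * Q : ℕ) : ℝ))) fun q' _ => Finset.sum_le_sum fun i _ =>
      Finset.sum_le_sum fun j _ => ?_).trans ?_
    · refine (abs_add_le _ _).trans ?_
      rw [Nat.abs_cast]
      have := abs_ww_le ht hT q q' i j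
      linarith
    · exact Finset.sum_le_sum_of_subset_of_nonneg (Finset.erase_subset _ _)
        fun _ _ _ => by positivity
  simp only [Finset.sum_const, Finset.card_univ, Fintype.card_fin, nsmul_eq_mul] at e1 e2
  have hm : (1 : ℝ) ≤ (m + 1 : ℕ) := by push_cast; linarith [(Nat.cast_nonneg m : (0 : ℝ) ≤ m)]
  have hTQ : (0 : ℝ) ≤ (T * Q : ℕ) := Nat.cast_nonneg _
  have hJ' : (J0 : ℝ) = 2 * (T * Q : ℕ) := by rw [hJ]; push_cast; ring
  rw [hJ'] at e2 ⊢
  set N : ℝ := ((m + 1 : ℕ) : ℝ) with hN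
  have hN' : ((17 * (m + 1) ^ 2 * (T * Q) : ℕ) : ℝ) = 17 * N ^ 2 * (T * Q : ℕ) := by
    rw [hN]; push_cast; ring
  rw [hN']
  set R : ℝ := ((T * Q : ℕ) : ℝ) with hR
  push_cast at e1 e2
  have hNN : N ≤ N ^ 2 := by nlinarith
  have h3 : N * R ≤ N ^ 2 * R := mul_le_mul_of_nonneg_right hNN hTQ
  have h4 : 0 ≤ N ^ 2 * R := by positivity
  nlinarith

end Vale.Agent.P370.H195
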