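import Vale.Agent.P370.H195.Facts
import Vale.Agent.P370.H365.Main

/-!
The clock Hamiltonian of a compiled circuit as the list of terms in natural numbers.
-/

namespace Vale.Agent.P370.H195

open Vale.Agent.P370.H220 (Ax Term Step tI tZ tZZ tPP tFlip stepTerms orderTerms stepsTerms hamW ham
  TT W1 W2 W3 KK pad Lay)
open Vale.Agent.P370.H365 (nn steps ancN ancF compiled fi toStep SOK SCode)

/-! ### Relabelling of the sites -/

section Map
variable {κ κ' : Type} (e : κ → κ')

theorem map_tPP (c σ τ : ℚ) (i j : κ) :
    (tPP c σ τ i j).map (Term.map e) = tPP c σ τ (e i) (e j) := rfl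

theorem map_tFlip (c : ℚ) (k : κ) (w : Option (κ × ℕ)) :
    (tFlip c k w).map (Term.map e) = tFlip c (e k) (w.map fun p => (e p.1, p.2)) := by
  cases w <;> rfl

theorem map_stepTerms (L1 L2 : ℚ) (ca cb : ℕ → κ) (j : ℕ) (g : Step κ) :
    (stepTerms L1 L2 ca cb j g).map (Term.map e) =
      stepTerms L1 L2 (fun i => e (ca i)) (fun i => e (cb i)) j (g.map e) := by
  unfold stepTerms
  rw [List.map_append, List.map_append, map_tFlip, map_tFlip]
  rfl

theorem map_orderTerms (L1 : ℚ) (ca cb : ℕ → κ) (j : ℕ) :
    (orderTerms L1 ca cb j).map (Term.map e) =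
      orderTerms L1 (fun i => e (ca i)) (fun i => e (cb i)) j := rfl

theorem map_stepsTerms (L1 L2 : ℚ) (ca cb : ℕ → κ) (L : List (Step κ)) (j : ℕ) :
    (stepsTerms L1 L2 ca cb j L).map (Term.map e) =
      stepsTerms L1 L2 (fun i => e (ca i)) (fun i => e (cb i)) j (L.map (Step.map e)) := by
  induction L generalizing j with
  | nil => rfl
  | cons g L ih =>
    cases L with
    | nil => exact map_stepTerms e L1 L2 ca cb j g
    | cons g' L =>
      rw [stepsTerms, List.map_append, List.map_append, ih (j + 1), map_stepTerms, map_orderTerms]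
      rfl

theorem map_pad (out : κ) (L : List (Step κ)) :
    (pad out L).map (Step.map e) = pad (e out) (L.map (Step.map e)) := by
  simp [pad, Step.map]

theorem map_hamW (L1 L2 L3 : ℚ) (ca cb : ℕ → κ) (anc : List κ) (out : κ) (L : List (Step κ)) :
    (hamW L1 L2 L3 ca cb anc out L).map (Term.map e) =
      hamW L1 L2 L3 (fun i => e (ca i)) (fun i => e (cb i)) (anc.map e) (e out)
        (L.map (Step.map e)) := by
  unfold hamW
  simp only [List.map_append, map_stepsTerms, map_pad, List.length_map]
  congr 1
  congr 1
  rw [List.map_flatMap, List.flatMap_map]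
  rfl

end Map

theorem form_perm {κ : Type} [DecidableEq κ] [Fintype κ] {l l' : List (Term κ)} (h : l.Perm l')
    (ψ : (κ → Bool) → ℝ) : H220.form l ψ = H220.form l' ψ := by
  unfold H220.form
  exact (h.map _).sum_eq

/-! ### The compiled circuit -/

/-- Number of the last site: the sites are `0, …, mm C`. -/
def mm (C : Circuit) : ℕ := nn C + 2 * ((steps C).length + 2)

/-- The list of terms of the circuit, in natural numbers. -/
def hamN (C : Circuit) : List TN :=
  hamWN (W1 C.anc (steps C).length) (W2 C.anc (steps C).length) W3 (nn C + 1) (ancN C) 0 (steps C)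

/-- Decoding of a term, with sites in `Fin (m + 1)`. -/
def decF (m : ℕ) (t : TN) : Term (Fin (m + 1)) := (dec t).map (fi m)

/-- The embedding of the data sites. -/
def dat (C : Circuit) (i : Fin (nn C + 1)) : Fin (mm C + 1) := fi (mm C) i

/-- The clock bits. -/
def caF (C : Circuit) (j : ℕ) : Fin (mm C + 1) := fi (mm C) (cA (nn C + 1) j)
/-- The clock bits. -/
def cbF (C : Circuit) (j : ℕ) : Fin (mm C + 1) := fi (mm C) (cB (nn C + 1) j)

theorem fi_val {n i : ℕ} (h : i ≤ n) : ((fi n i : Fin (n + 1)) : ℕ) = i := by
  simp only [fi]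
  omega

theorem fi_inj {n i j : ℕ} (hi : i ≤ n) (hj : j ≤ n) (h : fi n i = fi n j) : i = j := by
  have := congrArg Fin.val h
  rwa [fi_val hi, fi_val hj] at this

theorem dat_fi (C : Circuit) {i : ℕ} (h : i ≤ nn C) : dat C (fi (nn C) i) = fi (mm C) i := by
  unfold dat
  rw [fi_val h]

theorem lay (C : Circuit) : Lay (dat C) (caF C) (cbF C) ((compiled C).length + 2) := by
  have hl : (compiled C).length = (steps C).length := by simp [compiled]
  rw [hl]
  have hm : mm C = nn C + 2 * ((steps C).length + 2) := rfl
  have hd : ∀ i : Fin (nn C + 1), (i : ℕ) ≤ mm C := fun i => by have := i.2; omega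
  refine ⟨?_, ?_, ?_, ?_, ?_, ?_, ?_⟩
  · intro i j h
    exact Fin.ext (fi_inj (hd i) (hd j) h)
  · intro j k hj hk h
    have := fi_inj (by unfold cA; omega) (by unfold cA; omega) h
    unfold cA at this
    omega
  · intro j k hj hk h
    have := fi_inj (by unfold cB; omega) (by unfold cB; omega) h
    unfold cB at this
    omega
  · intro j k hj hk h
    have := fi_inj (by unfold cA; omega) (by unfold cB; omega) h
    unfold cA cB at this
    omega
  · intro j i hj h
    have := fi_inj (by unfold cA; omega) (hd i) h
    have := i.2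
    unfold cA at *
    omega
  · intro j i hj h
    have := fi_inj (by unfold cB; omega) (hd i) h
    have := i.2
    unfold cB at *
    omega
  · intro z
    by_cases h : (z : ℕ) ≤ nn C
    · left
      refine ⟨⟨z, by omega⟩, Fin.ext ?_⟩
      unfold dat
      rw [fi_val (by dsimp only; omega)]
    · have hz := z.2
      push Not at h
      rcases Nat.even_or_odd' ((z : ℕ) - (nn C + 1)) with ⟨k, hk | hk⟩
      · right; left
        refine ⟨k, by omega, Fin.ext ?_⟩
        unfold caF
        rw [fi_val (by unfold cA; omega)]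
        unfold cA
        omega
      · right; right
        refine ⟨k, by omega, Fin.ext ?_⟩
        unfold cbF
        rw [fi_val (by unfold cB; omega)]
        unfold cB
        omega

theorem ancF_dat (C : Circuit) : (ancF C).map (dat C) = (ancN C).map (fi (mm C)) := by
  unfold ancF
  rw [List.map_map]
  refine List.map_congr_left fun i hi => ?_
  unfold ancN at hi
  simp only [List.mem_map, List.mem_range] at hi
  obtain ⟨k, hk, rfl⟩ := hi
  exact dat_fi C (by unfold nn; omega)

theorem compiled_dat {C : Circuit} (h : ∀ g ∈ steps C, SOK (nn C) g) :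
    (compiled C).map (Step.map (dat C)) = ((steps C).map decS).map (Step.map (fi (mm C))) := by
  unfold compiled
  rw [List.map_map, List.map_map]
  refine List.map_congr_left fun g hg => ?_
  obtain ⟨h1, h2, h3⟩ := h g hg
  obtain ⟨f, u, v⟩ := g
  simp only at h1 h2 h3
  simp only [Function.comp, toStep, Step.map, decS]
  rw [dat_fi C h1]
  congr 1
  · cases u with
    | none => rfl
    | some p => simp only [Option.map_some]; rw [dat_fi C (h2 p rfl).1]
  · cases v with
    | none => rfl
    | some p => simp only [Option.map_some]; rw [dat_fi C (h3 p rfl).1]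

theorem length_ancN (C : Circuit) : (ancN C).length = C.anc := by simp [ancN]

/-- The form of the clock Hamiltonian. -/
theorem form_ham {C : Circuit} (h : ∀ g ∈ steps C, SOK (nn C) g)
    (ψ : (Fin (mm C + 1) → Bool) → ℝ) :
    H220.form (ham (caF C) (cbF C) ((ancF C).map (dat C)) (dat C (fi (nn C) 0))
      ((compiled C).map (Step.map (dat C)))) ψ = H220.form ((hamN C).map (decF (mm C))) ψ := by
  rw [ancF_dat, compiled_dat h, dat_fi C (Nat.zero_le _)]
  unfold ham
  have hp := dec_hamWN (W1 C.anc (steps C).length) (W2 C.anc (steps C).length) W3 (nn C + 1)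
    (ancN C) 0 (steps C)
  have hp' := hp.map (Term.map (fi (mm C)))
  rw [map_hamW, List.map_map] at hp'
  simp only [List.length_map, length_ancN]
  exact (form_perm hp' ψ).symm

theorem okS_steps {C : Circuit} (h : ∀ g ∈ steps C, SOK (nn C) g) :
    ∀ g ∈ steps C, OkS (nn C + 1) g := by
  intro g hg
  obtain ⟨h1, h2, h3⟩ := h g hg
  exact ⟨by omega, fun p hp => by have := (h2 p hp).1; omega,
    fun p hp => by have := (h3 p hp).1; omega⟩

end Vale.Agent.P370.H195
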