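import Vale.Agent.P370.HeisDefs

/-!
Rounding the couplings of a Heisenberg model.
-/

namespace Vale.Agent.P370.H195

open Vale.Agent.P370.Heis

/-- The expectation of `SWAP_ab`. -/
def swapSum {n : ℕ} (a b : Fin n) (χ : (Fin n → Bool) → ℝ) : ℝ :=
  ∑ s, χ s * χ (s ∘ Equiv.swap a b)

/-- The form of `∑_{a < b} J_ab SWAP_ab`. -/
def hsForm {n : ℕ} (J : Fin n → Fin n → ℝ) (χ : (Fin n → Bool) → ℝ) : ℝ :=
  ∑ a, ∑ b, if a < b then J a b * swapSum a b χ else 0

/-- Sum over the pairs. -/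
def pairSum {n : ℕ} (W : Fin n → Fin n → ℝ) : ℝ := ∑ a, ∑ b, if a < b then W a b else 0

theorem nsq_comp_swap {n : ℕ} (a b : Fin n) (χ : (Fin n → Bool) → ℝ) :
    ∑ s, χ (s ∘ Equiv.swap a b) ^ 2 = nsq χ := by
  unfold nsq
  exact Equiv.sum_comp (Equiv.arrowCongr (Equiv.swap a b) (Equiv.refl Bool)) (fun s => χ s ^ 2)

theorem pairForm_eq {n : ℕ} (a b : Fin n) (χ : (Fin n → Bool) → ℝ) :
    pairForm a b χ = nsq χ + swapSum a b χ := by
  unfold pairForm nsq swapSum
  rw [← Finset.sum_add_distrib]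

theorem abs_swapSum_le {n : ℕ} (a b : Fin n) (χ : (Fin n → Bool) → ℝ) :
    |swapSum a b χ| ≤ nsq χ := by
  have h := nsq_comp_swap a b χ
  have h1 : ∀ s, |χ s * χ (s ∘ Equiv.swap a b)| ≤ (χ s ^ 2 + χ (s ∘ Equiv.swap a b) ^ 2) / 2 := by
    intro s
    rw [abs_mul]
    nlinarith [sq_nonneg (|χ s| - |χ (s ∘ Equiv.swap a b)|), sq_abs (χ s),
      sq_abs (χ (s ∘ Equiv.swap a b))]
  calc |swapSum a b χ| ≤ ∑ s, |χ s * χ (s ∘ Equiv.swap a b)| := Finset.abs_sum_le_sum_abs _ _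
    _ ≤ ∑ s, (χ s ^ 2 + χ (s ∘ Equiv.swap a b) ^ 2) / 2 := Finset.sum_le_sum fun s _ => h1 s
    _ = nsq χ := by
      rw [← Finset.sum_div, Finset.sum_add_distrib, h]
      unfold nsq
      ring

theorem nsq_nonneg {n : ℕ} (χ : (Fin n → Bool) → ℝ) : 0 ≤ nsq χ :=
  Finset.sum_nonneg fun _ _ => sq_nonneg _

theorem wForm_eq {n : ℕ} (W : Fin n → Fin n → ℝ) (χ : (Fin n → Bool) → ℝ) :
    wForm W χ = pairSum W * nsq χ + hsForm W χ := by
  unfold wForm pairSum hsForm
  rw [Finset.sum_mul, ← Finset.sum_add_distrib]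
  refine Finset.sum_congr rfl fun a _ => ?_
  rw [Finset.sum_mul, ← Finset.sum_add_distrib]
  refine Finset.sum_congr rfl fun b _ => ?_
  split_ifs with h
  · rw [pairForm_eq]; ring
  · simp

/-- The effect of the rounding. -/
theorem abs_wForm_sub_le {n : ℕ} (W J : Fin n → Fin n → ℝ) (K C : ℝ) (hC : 0 ≤ C)
    (h : ∀ a b, a < b → |W a b - K * J a b| ≤ C) (χ : (Fin n → Bool) → ℝ) :
    |wForm W χ - (pairSum W * nsq χ + K * hsForm J χ)| ≤ C * n ^ 2 * nsq χ := by
  rw [wForm_eq]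
  have e : pairSum W * nsq χ + hsForm W χ - (pairSum W * nsq χ + K * hsForm J χ) =
      ∑ a, ∑ b, if a < b then (W a b - K * J a b) * swapSum a b χ else 0 := by
    unfold hsForm
    rw [Finset.mul_sum, add_sub_add_left_eq_sub, ← Finset.sum_sub_distrib]
    refine Finset.sum_congr rfl fun a _ => ?_
    rw [Finset.mul_sum, ← Finset.sum_sub_distrib]
    refine Finset.sum_congr rfl fun b _ => ?_
    split_ifs with h
    · ring
    · simp
  rw [e]
  have hn := nsq_nonneg χ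
  calc |∑ a, ∑ b, if a < b then (W a b - K * J a b) * swapSum a b χ else 0| ≤
      ∑ a : Fin n, ∑ b : Fin n, C * nsq χ := by
        refine (Finset.abs_sum_le_sum_abs _ _).trans (Finset.sum_le_sum fun a _ => ?_)
        refine (Finset.abs_sum_le_sum_abs _ _).trans (Finset.sum_le_sum fun b _ => ?_)
        split_ifs with h'
        · rw [abs_mul]
          exact mul_le_mul (h a b h') (abs_swapSum_le a b χ) (abs_nonneg _) hC
        · rw [abs_zero]; positivity
    _ = C * n ^ 2 * nsq χ := by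
      simp only [Finset.sum_const, Finset.card_univ, Fintype.card_fin, nsmul_eq_mul]
      ring

end Vale.Agent.P370.H195
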