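import Vale.Agent.P370.H195.TermN

/-!
Bounds and well-formedness of the terms in natural numbers.
-/

namespace Vale.Agent.P370.H195

/-- A well-formed term: sites `< m`, weight `≤ Q`, and if both axes are not the identity, the two
sites are different. -/
structure OkN (m Q : ℕ) (t : TN) : Prop where
  q : t.1.2.1 ≤ Q
  i : t.2.1.1 < m
  j : t.2.2.1 < m
  a : t.2.1.2 ≤ 2
  b : t.2.2.2 ≤ 2
  ne : t.2.1.2 ≠ 0 → t.2.2.2 ≠ 0 → t.2.1.1 ≠ t.2.2.1

/-- A well-formed step on `n` data sites. -/
def OkS (n : ℕ) (g : SN) : Prop :=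
  g.1 < n ∧ (∀ p, g.2.1 = some p → p.1 < n) ∧ (∀ p, g.2.2 = some p → p.1 < n)

theorem ok_tPPN {m Q : ℕ} {s σ τ : Bool} {c i j : ℕ} (hc : c ≤ Q) (hi : i < m) (hj : j < m)
    (hij : i ≠ j) : ∀ t ∈ tPPN s c σ τ i j, OkN m Q t := by
  intro t ht
  simp only [tPPN, List.mem_cons, List.not_mem_nil, or_false] at ht
  rcases ht with rfl | rfl | rfl | rfl
  · exact ⟨hc, hi, hi, by simp [tIN], by simp [tIN], by simp [tIN]⟩
  · exact ⟨hc, hi, hi, by simp [tZN], by simp [tZN], by simp [tZN]⟩
  · exact ⟨hc, hj, hj, by simp [tZN], by simp [tZN], by simp [tZN]⟩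
  · exact ⟨hc, hi, hj, by simp [tZZN], by simp [tZZN], by simpa [tZZN] using hij⟩

theorem ok_tFlipN {m Q c k n : ℕ} {w : Option (ℕ × ℕ)} (hc : c ≤ Q) (hk : k < m)
    (hw : ∀ p, w = some p → p.1 < n) (hkn : n ≤ k) : ∀ t ∈ tFlipN c k w, OkN m Q t := by
  intro t ht
  cases w with
  | none =>
    simp only [tFlipN, List.mem_cons, List.not_mem_nil, or_false] at ht
    subst ht
    exact ⟨hc, hk, hk, by simp, by simp, by simp⟩
  | some p =>
    have hp := hw p rfl
    simp only [tFlipN, List.mem_cons, List.not_mem_nil, or_false] at ht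
    rcases ht with rfl | rfl
    · refine ⟨hc, hk, by dsimp only; omega, by simp, by simp, fun _ _ => ?_⟩
      dsimp only; omega
    · refine ⟨hc, hk, by dsimp only; omega, by simp, by simp, fun _ _ => ?_⟩
      dsimp only; omega

theorem ok_stepTermsN {m Q L1 L2 n j : ℕ} {g : SN} (h1 : 4 * L1 ≤ Q) (h2 : 4 * L2 ≤ Q)
    (hm : n + 2 * j + 1 < m) (hg : OkS n g) : ∀ t ∈ stepTermsN L1 L2 n j g, OkN m Q t := by
  intro t ht
  obtain ⟨hg1, hg2, hg3⟩ := hg
  unfold stepTermsN at ht
  simp only [List.mem_append, List.mem_cons, List.not_mem_nil, or_false] at ht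
  rcases ht with (((rfl | rfl | rfl | rfl) | ht) | ht)
  · exact ⟨h1, by simp only [tIN]; omega, by simp only [tIN]; omega, by simp [tIN], by simp [tIN],
      by simp [tIN]⟩
  · refine ⟨h1, ?_, ?_, by simp [tZZN], by simp [tZZN], fun _ _ => ?_⟩ <;> simp only [tZZN] <;> omega
  · refine ⟨h1, ?_, ?_, by simp [tZZN], by simp [tZZN], fun _ _ => ?_⟩ <;> simp only [tZZN] <;> omega
  · refine ⟨h1, ?_, ?_, by simp [tZZN], by simp [tZZN], fun _ _ => ?_⟩ <;> simp only [tZZN] <;> omega
  · exact ok_tFlipN h2 (by omega) hg2 (by omega) t ht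
  · exact ok_tFlipN h2 (by omega) hg3 (by omega) t ht

theorem ok_orderTermsN {m Q L1 n j : ℕ} (h1 : 2 * L1 ≤ Q) (hm : n + 2 * (j + 1) + 1 < m) :
    ∀ t ∈ orderTermsN L1 n j, OkN m Q t := by
  intro t ht
  unfold orderTermsN at ht
  simp only [List.mem_append] at ht
  rcases ht with ((ht | ht) | ht) | ht
  all_goals exact ok_tPPN h1 (by omega) (by omega) (by omega) t ht

theorem ok_hamWN {L1 L2 L3 n out Q : ℕ} {anc : List ℕ} {L : List SN} (h1 : 4 * L1 ≤ Q)
    (h2 : 8 * L2 ≤ Q) (h3 : 2 * L3 ≤ Q) (h4 : 2 ≤ Q) (hout : out < n) (hanc : ∀ i ∈ anc, i < n)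
    (hL : ∀ g ∈ L, OkS n g) :
    ∀ t ∈ hamWN L1 L2 L3 n anc out L, OkN (n + 2 * (L.length + 2)) Q t := by
  intro t ht
  unfold hamWN at ht
  simp only [List.mem_append, List.mem_cons, List.mem_flatMap, List.mem_range] at ht
  rcases ht with ((((⟨⟨g, j⟩, hg, ht⟩ | ⟨j, hj, ht⟩) | rfl | ht) | ht) | ⟨i, hi, ht⟩) | ht
  · have hj : j < L.length + 2 := by
      have := List.snd_lt_add_of_mem_zipIdx hg
      simp [padN] at this
      omega
    have hg' : g ∈ padN out L := by
      exact List.fst_mem_of_mem_zipIdx hg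
    refine ok_stepTermsN h1 (by omega) (by dsimp only; omega) ?_ t ht
    unfold padN at hg'
    simp only [List.mem_cons, List.mem_append, List.not_mem_nil, or_false] at hg'
    rcases hg' with rfl | hg' | rfl
    · exact ⟨hout, by simp, by simp⟩
    · exact hL g hg'
    · exact ⟨hout, by simp, by simp⟩
  · exact ok_orderTermsN (by omega) (by omega) t ht
  · exact ⟨h2, by simp only [tIN]; omega, by simp only [tIN]; omega, by simp [tIN], by simp [tIN],
      by simp [tIN]⟩
  · exact ok_tPPN (by omega) (by omega) (by omega) (by omega) t ht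
  · exact ok_tPPN (by omega) (by omega) (by omega) (by omega) t ht
  · have := hanc i hi
    exact ok_tPPN (by omega) (by omega) (by omega) (by omega) t ht
  · exact ok_tPPN (by omega) (by omega) (by omega) (by omega) t ht

theorem length_tFlipN (c k : ℕ) (w : Option (ℕ × ℕ)) : (tFlipN c k w).length ≤ 2 := by
  cases w <;> simp [tFlipN]

theorem length_hamWN (L1 L2 L3 n : ℕ) (anc : List ℕ) (out : ℕ) (L : List SN) :
    (hamWN L1 L2 L3 n anc out L).length ≤ 24 * (L.length + 2) + 4 * anc.length + 13 := by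
  unfold hamWN
  simp only [List.length_append, List.length_cons, List.length_flatMap]
  have e1 : ((padN out L).zipIdx.map fun p => (stepTermsN L1 L2 n p.2 p.1).length).sum ≤
      8 * (L.length + 2) := by
    have h : ∀ x ∈ (padN out L).zipIdx.map fun p => (stepTermsN L1 L2 n p.2 p.1).length, x ≤ 8 := by
      intro x hx
      rw [List.mem_map] at hx
      obtain ⟨p, _, rfl⟩ := hx
      unfold stepTermsN
      simp only [List.length_append, List.length_cons, List.length_nil]
      have := length_tFlipN (4 * L2) (n + 2 * p.2) p.1.2.1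
      have := length_tFlipN (4 * L2) (n + 2 * p.2 + 1) p.1.2.2
      omega
    have := List.sum_le_card_nsmul _ 8 h
    simp only [List.length_map, List.length_zipIdx, smul_eq_mul] at this
    have h2 : (padN out L).length = L.length + 2 := by simp [padN]
    rw [h2] at this
    omega
  have e2 : ((List.range (L.length + 1)).map fun j => (orderTermsN L1 n j).length).sum ≤
      16 * (L.length + 2) := by
    have h : ∀ x ∈ (List.range (L.length + 1)).map fun j => (orderTermsN L1 n j).length, x ≤ 16 := by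
      intro x hx
      rw [List.mem_map] at hx
      obtain ⟨p, _, rfl⟩ := hx
      simp [orderTermsN, tPPN]
    have := List.sum_le_card_nsmul _ 16 h
    simp only [List.length_map, List.length_range, smul_eq_mul] at this ⊢
    omega
  have e3 : (anc.map fun i => (tPPN false (2 * L3) false true n i).length).sum = 4 * anc.length := by
    simp [tPPN, mul_comm]
  have e4 : ∀ s σ τ c i j, (tPPN s c σ τ i j).length = 4 := by intros; simp [tPPN]
  rw [e3, e4, e4, e4]
  omega

end Vale.Agent.P370.H195
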