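import Vale.Agent.P370.H195.TermPT
import Vale.Agent.P370.H195.Facts

/-!
Integer weights of the Heisenberg model.
-/

namespace Vale.Agent.P370.H195

open Vale.Agent.Lib.PolyTime
open Vale.Agent.P370.H220 (Ax Term)

/-- Sign of `2 γ` (`true` = minus): axis `1 = X`, `2 = Z`; spin `0, 1, 2` of the block. -/
def gamS (a α : ℕ) : Bool := if a = 1 then decide (α = 1) else decide (α ≠ 0)

/-- Magnitude of `2 γ`, without the factor `√3` of the axis `X`. -/
def gamM (a α : ℕ) : ℕ :=
  if a = 1 then (if α = 0 then 0 else 1) else (if α = 0 then 2 else 1)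

/-- `2 γ`: `Z = (2, -1, -1)`, `X = √3 (0, -1, 1)`. -/
noncomputable def gam (a α : ℕ) : ℝ :=
  (if gamS a α then -1 else 1) * gamM a α * (if a = 1 then √3 else 1)

/-- Contribution of a product of two axes: sign, magnitude, power of `√3`. -/
def pairC (a α b β : ℕ) : Bool × ℕ × ℕ :=
  ((gamS a α).xor (gamS b β),
    3 * (gamM a α * gamM b β * (if a = 1 ∧ b = 1 then 3 else 1)),
    if a = 1 ∧ b = 1 then 0 else if a = 1 ∨ b = 1 then 1 else 0)

/-- Contribution of a local term; `γ` is the third spin of the block. -/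
def locC (a γ : ℕ) : Bool × ℕ × ℕ := (!(gamS a γ), 2 * gamM a γ, if a = 1 then 1 else 0)

/-- No contribution. -/
def noC : Bool × ℕ × ℕ := (false, 0, 0)

/-- Contribution of a term to the pair of sites `x`, `y`, times `6`: sign, magnitude, power of
`√3`. The site `3 (i + 1) + α` is the spin `α` of the block of the qubit `i`. -/
def con (t : TN) (x y : ℕ) : Bool × ℕ × ℕ :=
  if t.2.1.2 ≠ 0 ∧ t.2.2.2 ≠ 0 then
    if t.2.1.1 + 1 = x / 3 ∧ t.2.2.1 + 1 = y / 3 then pairC t.2.1.2 (x % 3) t.2.2.2 (y % 3)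
    else if t.2.1.1 + 1 = y / 3 ∧ t.2.2.1 + 1 = x / 3 then pairC t.2.1.2 (y % 3) t.2.2.2 (x % 3)
    else noC
  else if t.2.1.2 ≠ 0 then
    if t.2.1.1 + 1 = x / 3 ∧ t.2.1.1 + 1 = y / 3 then locC t.2.1.2 (3 - x % 3 - y % 3) else noC
  else if t.2.2.2 ≠ 0 then
    if t.2.2.1 + 1 = x / 3 ∧ t.2.2.1 + 1 = y / 3 then locC t.2.2.2 (3 - x % 3 - y % 3) else noC
  else noC

/-- The real value of a contribution. -/
noncomputable def cval (c : Bool × ℕ × ℕ) : ℝ :=
  (if c.1 then -1 else 1) * (c.2.1 : ℝ) / 6 * √3 ^ c.2.2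

theorem cval_noC : cval noC = 0 := by simp [cval, noC]

theorem cval_pairC (a α b β : ℕ) : cval (pairC a α b β) = 1 / 2 * (gam a α * gam b β) := by
  unfold cval pairC gam
  have h3 : √3 * √3 = (3 : ℝ) := Real.mul_self_sqrt (by norm_num)
  generalize gamS a α = s
  generalize gamS b β = s'
  generalize gamM a α = m
  generalize gamM b β = m'
  have e1 : (if (s.xor s') = true then (-1 : ℝ) else 1) =
      (if s = true then (-1 : ℝ) else 1) * (if s' = true then (-1 : ℝ) else 1) := by
    cases s <;> cases s' <;> norm_num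
  rw [e1]
  generalize (if s = true then (-1 : ℝ) else 1) = σ
  generalize (if s' = true then (-1 : ℝ) else 1) = σ'
  by_cases ha : a = 1 <;> by_cases hb : b = 1
  · simp only [ha, hb, and_self, if_true, pow_zero]
    push_cast
    calc σ * σ' * (3 * ((m : ℝ) * m' * 3)) / 6 * 1 = 1 / 2 * σ * σ' * m * m' * 3 := by ring
      _ = 1 / 2 * σ * σ' * m * m' * (√3 * √3) := by rw [h3]
      _ = _ := by ring
  · simp only [ha, hb, and_false, if_false, or_false, if_true, pow_one]
    push_cast
    ring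
  · simp only [ha, hb, false_and, if_false, or_true, if_true, pow_one]
    push_cast
    ring
  · simp only [ha, hb, false_and, if_false, or_false, pow_zero]
    push_cast
    ring

theorem cval_locC (a γ : ℕ) : cval (locC a γ) = -(1 / 3) * gam a γ := by
  unfold cval locC gam
  generalize gamS a γ = s
  generalize gamM a γ = m
  have e1 : (if (!s) = true then (-1 : ℝ) else 1) = -(if s = true then (-1 : ℝ) else 1) := by
    cases s <;> norm_num
  rw [e1]
  generalize (if s = true then (-1 : ℝ) else 1) = σ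
  by_cases ha : a = 1
  · simp only [ha, if_true, pow_one]
    push_cast
    ring
  · simp only [ha, if_false, pow_zero]
    push_cast
    ring

theorem con_e (t : TN) (x y : ℕ) : (con t x y).2.2 ≤ 1 := by
  unfold con pairC locC noC
  split_ifs <;> simp

theorem gamM_le (a α : ℕ) : gamM a α ≤ 2 := by
  unfold gamM; split_ifs <;> norm_num

theorem con_m (t : TN) (x y : ℕ) : (con t x y).2.1 ≤ 36 := by
  unfold con pairC locC noC
  have h := gamM_le
  split_ifs <;> simp only
  all_goals first
    | exact Nat.zero_le _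
    | (have h1 := h t.2.1.2 (x % 3); have h2 := h t.2.2.2 (y % 3); nlinarith)
    | (have h1 := h t.2.1.2 (y % 3); have h2 := h t.2.2.2 (x % 3); nlinarith)
    | (have h1 := h t.2.1.2 (3 - x % 3 - y % 3); omega)
    | (have h1 := h t.2.2.2 (3 - x % 3 - y % 3); omega)

/-! ### The integer weights -/

/-- The approximation of `48 K · coefficient · contribution`, without the sign. -/
def apC (K : ℕ) (t : TN) (x y : ℕ) : ℕ :=
  if (con t x y).2.2 = 0 then apx 0 t.1.2.2 (K * (t.1.2.1 * (con t x y).2.1))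
  else apx 1 t.1.2.2 (K * (t.1.2.1 * (con t x y).2.1))

/-- The sign (`true` = minus) of the contribution of a term. -/
def sgC (t : TN) (x y : ℕ) : Bool := (t.1.1.xor (con t x y).1).xor (neg t.1.2.2)

/-- Sum of the positive contributions. -/
def posC (K : ℕ) (ts : List TN) (x y : ℕ) : ℕ :=
  (ts.map fun t => if sgC t x y then 0 else apC K t x y).sum

/-- Sum of the negative contributions. -/
def negC (K : ℕ) (ts : List TN) (x y : ℕ) : ℕ :=
  (ts.map fun t => if sgC t x y then apC K t x y else 0).sum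

/-- The base weights. -/
def baseN (J0 Lc B x y : ℕ) : ℕ := if x / 3 = y / 3 then B else if x / 3 = 0 then Lc else J0

/-- The integer weight of the pair `x < y`; `J0`, `Lc`, `B` are the base couplings, `48 K` is the
scale. -/
def wN (K J0 Lc B : ℕ) (ts : List TN) (x y : ℕ) : ℕ :=
  48 * K * baseN J0 Lc B x y + posC K ts x y - negC K ts x y

/-- The real contribution of a term to the coupling of `x`, `y`. -/
noncomputable def conR (t : TN) (x y : ℕ) : ℝ := (dec t).coef * cval (con t x y)

theorem sgQ_cast (s : Bool) : ((sgQ s : ℚ) : ℝ) = if s then -1 else 1 := by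
  cases s <;> simp [sgQ]

theorem apC_spec (K : ℕ) (t : TN) (x y : ℕ) :
    |(if sgC t x y then -(apC K t x y : ℝ) else apC K t x y) - 48 * K * conR t x y| ≤ 3 := by
  have he := con_e t x y
  set c := con t x y with hc
  obtain ⟨s, m, e⟩ := c
  simp only at he
  have h := apx_signed e t.1.2.2 (K * (t.1.2.1 * m))
  have hap : apC K t x y = apx e t.1.2.2 (K * (t.1.2.1 * m)) := by
    unfold apC
    rw [← hc]
    interval_cases e <;> simp
  have hval : 48 * K * conR t x y = (if t.1.1.xor s then -1 else 1) *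
      (((K * (t.1.2.1 * m) : ℕ) : ℝ) * √3 ^ e * Real.cos (t.1.2.2 * Real.pi / 8)) := by
    unfold conR cval dec Term.coef
    rw [← hc]
    simp only
    push_cast
    rw [sgQ_cast]
    rcases Bool.eq_false_or_eq_true t.1.1 with h1 | h1 <;>
    rcases Bool.eq_false_or_eq_true s with h2 | h2 <;>
    simp only [h1, h2] <;> simp <;> ring
  rw [hap, hval]
  unfold sgC
  rw [← hc]
  simp only
  rcases Bool.eq_false_or_eq_true (neg t.1.2.2) with h3 | h3 <;>
  rcases Bool.eq_false_or_eq_true (t.1.1.xor s) with h4 | h4 <;>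
  simp only [h3, h4] at h ⊢ <;>
  simp only [Bool.xor_true, Bool.xor_false, Bool.not_true, Bool.not_false, if_true, if_false,
    Bool.false_eq_true] at h ⊢ <;>
  rw [abs_le] at h ⊢ <;> constructor <;> linarith [h.1, h.2]

/-- The sum of the contributions. -/
noncomputable def sumR (ts : List TN) (x y : ℕ) : ℝ := (ts.map fun t => conR t x y).sum

theorem sum_spec (K : ℕ) (ts : List TN) (x y : ℕ) :
    |((posC K ts x y : ℝ) - negC K ts x y) - 48 * K * sumR ts x y| ≤ 3 * ts.length := by
  unfold posC negC sumR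
  induction ts with
  | nil => simp
  | cons t ts ih =>
    have h := apC_spec K t x y
    simp only [List.map_cons, List.sum_cons, List.length_cons]
    generalize (ts.map fun t => if sgC t x y then 0 else apC K t x y).sum = P at ih ⊢
    generalize (ts.map fun t => if sgC t x y then apC K t x y else 0).sum = N at ih ⊢
    generalize (ts.map fun t => conR t x y).sum = R at ih ⊢
    rw [abs_le] at ih h ⊢
    rcases Bool.eq_false_or_eq_true (sgC t x y) with h1 | h1 <;>
    simp only [h1] at h ⊢ <;> simp only [if_true, if_false, Bool.false_eq_true] at h ⊢ <;>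
    push_cast <;> constructor <;> linarith [h.1, h.2, ih.1, ih.2]

theorem apC_le {K Q m : ℕ} {t : TN} (ht : OkN m Q t) (x y : ℕ) :
    apC K t x y ≤ 72 * (K * Q) + 3 := by
  have h1 := con_m t x y
  have h2 : K * (t.1.2.1 * (con t x y).2.1) ≤ 36 * (K * Q) := by
    calc K * (t.1.2.1 * (con t x y).2.1) ≤ K * (Q * 36) := by
          gcongr
          exact ht.q
      _ = 36 * (K * Q) := by ring
  unfold apC
  split_ifs
  · exact (apx_le _ _ _ (by norm_num)).trans (by omega)
  · exact (apx_le _ _ _ (by norm_num)).trans (by omega)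

theorem posC_le {K Q m : ℕ} {ts : List TN} (ht : ∀ t ∈ ts, OkN m Q t) (x y : ℕ) :
    posC K ts x y ≤ ts.length * (72 * (K * Q) + 3) := by
  unfold posC
  have := List.sum_le_card_nsmul (ts.map fun t => if sgC t x y then 0 else apC K t x y)
    (72 * (K * Q) + 3) (by
      intro z hz
      obtain ⟨t, h, rfl⟩ := List.mem_map.1 hz
      split_ifs
      · exact Nat.zero_le _
      · exact apC_le (ht t h) x y)
  simpa using this

theorem negC_le {K Q m : ℕ} {ts : List TN} (ht : ∀ t ∈ ts, OkN m Q t) (x y : ℕ) :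
    negC K ts x y ≤ ts.length * (72 * (K * Q) + 3) := by
  unfold negC
  have := List.sum_le_card_nsmul (ts.map fun t => if sgC t x y then apC K t x y else 0)
    (72 * (K * Q) + 3) (by
      intro z hz
      obtain ⟨t, h, rfl⟩ := List.mem_map.1 hz
      split_ifs
      · exact apC_le (ht t h) x y
      · exact Nat.zero_le _)
  simpa using this

/-- The integer weights approximate the real couplings. -/
theorem wN_spec {K J0 Lc B : ℕ} {ts : List TN} {x y : ℕ}
    (h : negC K ts x y ≤ 48 * K * baseN J0 Lc B x y) :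
    |(wN K J0 Lc B ts x y : ℝ) - 48 * K * (baseN J0 Lc B x y + sumR ts x y)| ≤ 3 * ts.length := by
  unfold wN
  rw [Nat.cast_sub (h.trans (Nat.le_add_right _ _))]
  have h2 := sum_spec K ts x y
  push_cast
  rw [abs_le] at h2 ⊢
  constructor <;> linarith [h2.1, h2.2]

/-! ### Polynomial time -/

section PTs
variable {A : Set Word} {α : Type} [Enc α]

theorem PT_gamS {a b : α → ℕ} (ha : PT A a) (hb : PT A b) : PT A (fun z => gamS (a z) (b z)) := by
  unfold gamS
  exact PT.ite (p := fun z => a z = 1) (PT.eqNat ha (PT.const 1)) (PT.eqNat hb (PT.const 1))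
    ((PT.eqNat hb (PT.const 0)).not.congr fun z => by simp)

theorem PT_gamM {a b : α → ℕ} (ha : PT A a) (hb : PT A b) : PT A (fun z => gamM (a z) (b z)) := by
  unfold gamM
  exact PT.ite (p := fun z => a z = 1) (PT.eqNat ha (PT.const 1))
    (PT.ite (p := fun z => b z = 0) (PT.eqNat hb (PT.const 0)) (PT.const 0) (PT.const 1))
    (PT.ite (p := fun z => b z = 0) (PT.eqNat hb (PT.const 0)) (PT.const 2) (PT.const 1))

theorem PT_pairC {a b c d : α → ℕ} (ha : PT A a) (hb : PT A b) (hc : PT A c) (hd : PT A d) :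
    PT A (fun z => pairC (a z) (b z) (c z) (d z)) := by
  unfold pairC
  have h1 := PT.eqNat ha (PT.const 1)
  have h2 := PT.eqNat hc (PT.const 1)
  refine PT.pair ((PT_gamS ha hb).xor (PT_gamS hc hd)) (PT.pair ?_ ?_)
  · exact (PT.const 3).mul (((PT_gamM ha hb).mul (PT_gamM hc hd)).mul
      (PT.ite (p := fun z => a z = 1 ∧ c z = 1) (PT.decide_and h1 h2) (PT.const 3) (PT.const 1)))
  · exact PT.ite (p := fun z => a z = 1 ∧ c z = 1) (PT.decide_and h1 h2) (PT.const 0)
      (PT.ite (p := fun z => a z = 1 ∨ c z = 1) (PT.decide_or h1 h2) (PT.const 1) (PT.const 0))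

theorem PT_locC {a b : α → ℕ} (ha : PT A a) (hb : PT A b) : PT A (fun z => locC (a z) (b z)) := by
  unfold locC
  exact PT.pair (PT_gamS ha hb).not (PT.pair ((PT.const 2).mul (PT_gamM ha hb))
    (PT.ite (p := fun z => a z = 1) (PT.eqNat ha (PT.const 1)) (PT.const 1) (PT.const 0)))

theorem PT_con {t : α → TN} {x y : α → ℕ} (ht : PT A t) (hx : PT A x) (hy : PT A y) :
    PT A (fun z => con (t z) (x z) (y z)) := by
  unfold con
  have hi := ht.snd.fst.fst
  have ha := ht.snd.fst.snd
  have hj := ht.snd.snd.fst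
  have hb := ht.snd.snd.snd
  have hi1 := hi.add (PT.const (A := A) (α := α) 1)
  have hj1 := hj.add (PT.const (A := A) (α := α) 1)
  have hx3 := PT.div hx (PT.const (A := A) (α := α) 3)
  have hy3 := PT.div hy (PT.const (A := A) (α := α) 3)
  have hxm := PT.mod hx (PT.const (A := A) (α := α) 3)
  have hym := PT.mod hy (PT.const (A := A) (α := α) 3)
  have hne : ∀ {f : α → ℕ}, PT A f → PT A (fun z => decide (f z ≠ 0)) := fun hf =>
    (PT.eqNat hf (PT.const 0)).not.congr fun z => by simp
  have hthird : PT A (fun z => 3 - x z % 3 - y z % 3) := ((PT.const 3).sub hxm).sub hym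
  refine PT.ite (p := fun z => (t z).2.1.2 ≠ 0 ∧ (t z).2.2.2 ≠ 0)
    (PT.decide_and (hne ha) (hne hb)) ?_ ?_
  · refine PT.ite (p := fun z => (t z).2.1.1 + 1 = x z / 3 ∧ (t z).2.2.1 + 1 = y z / 3)
      (PT.decide_and (PT.eqNat hi1 hx3) (PT.eqNat hj1 hy3)) (PT_pairC ha hxm hb hym) ?_
    exact PT.ite (p := fun z => (t z).2.1.1 + 1 = y z / 3 ∧ (t z).2.2.1 + 1 = x z / 3)
      (PT.decide_and (PT.eqNat hi1 hy3) (PT.eqNat hj1 hx3)) (PT_pairC ha hym hb hxm) (PT.const noC)
  · refine PT.ite (p := fun z => (t z).2.1.2 ≠ 0) (hne ha) ?_ ?_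
    · exact PT.ite (p := fun z => (t z).2.1.1 + 1 = x z / 3 ∧ (t z).2.1.1 + 1 = y z / 3)
        (PT.decide_and (PT.eqNat hi1 hx3) (PT.eqNat hi1 hy3)) (PT_locC ha hthird) (PT.const noC)
    · refine PT.ite (p := fun z => (t z).2.2.2 ≠ 0) (hne hb) ?_ (PT.const noC)
      exact PT.ite (p := fun z => (t z).2.2.1 + 1 = x z / 3 ∧ (t z).2.2.1 + 1 = y z / 3)
        (PT.decide_and (PT.eqNat hj1 hx3) (PT.eqNat hj1 hy3)) (PT_locC hb hthird) (PT.const noC)

theorem PT_apC {K x y : α → ℕ} {t : α → TN} (hK : PT A K) (ht : PT A t) (hx : PT A x)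
    (hy : PT A y) : PT A (fun z => apC (K z) (t z) (x z) (y z)) := by
  unfold apC
  have hc := PT_con ht hx hy
  have hN : PT A (fun z => K z * ((t z).1.2.1 * (con (t z) (x z) (y z)).2.1)) :=
    hK.mul (ht.fst.snd.fst.mul hc.snd.fst)
  exact PT.ite (p := fun z => (con (t z) (x z) (y z)).2.2 = 0)
    (PT.eqNat hc.snd.snd (PT.const 0)) (PT_apx 0 ht.fst.snd.snd hN) (PT_apx 1 ht.fst.snd.snd hN)

theorem PT_sgC {x y : α → ℕ} {t : α → TN} (ht : PT A t) (hx : PT A x) (hy : PT A y) :
    PT A (fun z => sgC (t z) (x z) (y z)) :=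
  (ht.fst.fst.xor (PT_con ht hx hy).fst).xor (PT_neg ht.fst.snd.snd)

theorem PT_wN {K J0 Lc B x y : α → ℕ} {ts : α → List TN} (hK : PT A K) (hJ : PT A J0)
    (hL : PT A Lc) (hB : PT A B) (hts : PT A ts) (hx : PT A x) (hy : PT A y) :
    PT A (fun z => wN (K z) (J0 z) (Lc z) (B z) (ts z) (x z) (y z)) := by
  unfold wN baseN posC negC
  have hx3 := PT.div hx (PT.const (A := A) (α := α) 3)
  have hy3 := PT.div hy (PT.const (A := A) (α := α) 3)
  have hK' : PT A (fun q : α × TN => K q.1) := hK.comp PT.fst'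
  have hx' : PT A (fun q : α × TN => x q.1) := hx.comp PT.fst'
  have hy' : PT A (fun q : α × TN => y q.1) := hy.comp PT.fst'
  have ht : PT A (fun q : α × TN => q.2) := PT.snd'
  refine PT.sub (PT.add (PT.mul ((PT.const 48).mul hK) ?_) ?_) ?_
  · exact PT.ite (p := fun z => x z / 3 = y z / 3) (PT.eqNat hx3 hy3) hB
      (PT.ite (p := fun z => x z / 3 = 0) (PT.eqNat hx3 (PT.const 0)) hL hJ)
  · exact PT.sum (PT.map (f := fun z t => if sgC t (x z) (y z) then 0 else apC (K z) t (x z) (y z))
      hts (PT.ite (p := fun q : α × TN => sgC q.2 (x q.1) (y q.1) = true)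
        ((PT_sgC ht hx' hy').congr fun q => by simp) (PT.const 0) (PT_apC hK' ht hx' hy')))
  · exact PT.sum (PT.map (f := fun z t => if sgC t (x z) (y z) then apC (K z) t (x z) (y z) else 0)
      hts (PT.ite (p := fun q : α × TN => sgC q.2 (x q.1) (y q.1) = true)
        ((PT_sgC ht hx' hy').congr fun q => by simp) (PT_apC hK' ht hx' hy') (PT.const 0)))

end PTs

end Vale.Agent.P370.H195
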