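import Vale.Agent.P370.H195.Model
import Vale.Agent.P370.H195.Weights
import Vale.Agent.P370.H195.FinTerms
import Vale.Agent.P370.H195.Round

/-!
The couplings of the Heisenberg model of a list of terms, in terms of natural numbers.
-/

namespace Vale.Agent.P370.H195

open Finset
open Vale.Agent.P370.H220 (Ax Term)
open Vale.Agent.P370.H365 (fi)
open Vale.Agent.P370.H337 (JJ ww gg third)

/-! ### Linearity of the couplings in the terms -/

section Lin
variable {κ : Type} [DecidableEq κ]

theorem ww_cT_nil (q q' : κ) (i j : Fin 3) : ww (cT ([] : List (Term κ))) q q' i j = 0 := by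
  simp [ww, cT]

theorem ww_cT_cons (t : Term κ) (l : List (Term κ)) (q q' : κ) (i j : Fin 3) :
    ww (cT (t :: l)) q q' i j = ww (c1 t) q q' i j + ww (cT l) q q' i j := by
  unfold ww cT
  rw [← mul_add, ← Finset.sum_add_distrib]
  congr 1
  refine Finset.sum_congr rfl fun P _ => ?_
  rw [← Finset.sum_add_distrib]
  refine Finset.sum_congr rfl fun Q _ => ?_
  rw [List.map_cons, List.sum_cons, List.map_cons, List.sum_cons]
  ring

theorem ww_cT (l : List (Term κ)) (q q' : κ) (i j : Fin 3) :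
    ww (cT l) q q' i j = (l.map fun t => ww (c1 t) q q' i j).sum := by
  induction l with
  | nil => exact ww_cT_nil q q' i j
  | cons t l ih => rw [ww_cT_cons, ih, List.map_cons, List.sum_cons]

theorem gg_hT (l : List (Term κ)) (q : κ) (k : Fin 3) :
    gg (hT 1 l) (hT 2 l) q k = (l.map fun t => gg (h1 1 t) (h1 2 t) q k).sum := by
  induction l with
  | nil => fin_cases k <;> simp [gg, hT]
  | cons t l ih =>
    rw [List.map_cons, List.sum_cons, ← ih]
    unfold gg hT
    simp only [List.map_cons, List.sum_cons]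
    fin_cases k <;> simp <;> ring

end Lin

/-! ### One term -/

/-- The coefficient of `A_α` in the axis with number `a`. -/
theorem mm_eq (a : ℕ) (ha : a = 1 ∨ a = 2) (α : Fin 3) :
    H337.mm (axF (axN a)) α = gam a α / 2 := by
  rcases ha with rfl | rfl <;> fin_cases α <;>
    simp [H337.mm, axF, axN, gam, gamS, gamM] <;> ring

theorem axF_axN (a : ℕ) (ha : a ≤ 2) : ((axF (axN a) : Fin 3) : ℕ) = a := by
  interval_cases a <;> rfl

theorem axF_axN_ne (a : ℕ) (ha : a ≤ 2) : axF (axN a) ≠ 0 ↔ a ≠ 0 := by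
  interval_cases a <;> simp [axN, axF]

section One
variable {κ : Type} [DecidableEq κ]

theorem ww_c1 (t : Term κ) (q q' : κ) (i j : Fin 3) :
    ww (c1 t) q q' i j = (if axF t.a ≠ 0 ∧ axF t.b ≠ 0 then t.coef else 0) *
      ((if q = t.i ∧ q' = t.j then 2 * (H337.mm (axF t.a) i * H337.mm (axF t.b) j) else 0) +
      (if q' = t.i ∧ q = t.j then 2 * (H337.mm (axF t.b) i * H337.mm (axF t.a) j) else 0)) := by
  unfold ww c1
  generalize (if axF t.a ≠ 0 ∧ axF t.b ≠ 0 then t.coef else 0) = v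
  have e1 : ∑ P, ∑ Q, (if q = t.i then (if q' = t.j then (if P = axF t.a then
      (if Q = axF t.b then v else 0) else 0) else 0) else 0) * (H337.mm P i * H337.mm Q j) =
      if q = t.i ∧ q' = t.j then v * (H337.mm (axF t.a) i * H337.mm (axF t.b) j) else 0 := by
    by_cases h1 : q = t.i
    · by_cases h2 : q' = t.j
      · simp [h1, h2]
      · simp [h1, h2]
    · simp [h1]
  have e2 : ∑ P, ∑ Q, (if q' = t.i then (if q = t.j then (if Q = axF t.a then
      (if P = axF t.b then v else 0) else 0) else 0) else 0) * (H337.mm P i * H337.mm Q j) =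
      if q' = t.i ∧ q = t.j then v * (H337.mm (axF t.b) i * H337.mm (axF t.a) j) else 0 := by
    by_cases h1 : q' = t.i
    · by_cases h2 : q = t.j
      · simp [h1, h2]
      · simp [h1, h2]
    · simp [h1]
  simp only [add_mul, Finset.sum_add_distrib]
  rw [e1, e2]
  split_ifs <;> ring

theorem gg_h1 (t : Term κ) (q : κ) (k : Fin 3) :
    gg (h1 1 t) (h1 2 t) q k = -(2 / 3) * t.coef *
      ((if q = t.i ∧ axF t.a ≠ 0 ∧ axF t.b = 0 then H337.mm (axF t.a) k else 0) +
      (if q = t.j ∧ axF t.b ≠ 0 ∧ axF t.a = 0 then H337.mm (axF t.b) k else 0)) := by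
  have key : ∀ (p r : Prop) [Decidable p] [Decidable r] (a b : Ax) (v : ℝ),
      (![-(2 / 3) * ((if p then (if axF a = 2 ∧ axF b = 0 then v else 0) else 0) +
          (if r then (if axF b = 2 ∧ axF a = 0 then v else 0) else 0)),
        1 / 3 * ((if p then (if axF a = 2 ∧ axF b = 0 then v else 0) else 0) +
          (if r then (if axF b = 2 ∧ axF a = 0 then v else 0) else 0)) +
        √3 / 3 * ((if p then (if axF a = 1 ∧ axF b = 0 then v else 0) else 0) +
          (if r then (if axF b = 1 ∧ axF a = 0 then v else 0) else 0)),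
        1 / 3 * ((if p then (if axF a = 2 ∧ axF b = 0 then v else 0) else 0) +
          (if r then (if axF b = 2 ∧ axF a = 0 then v else 0) else 0)) -
        √3 / 3 * ((if p then (if axF a = 1 ∧ axF b = 0 then v else 0) else 0) +
          (if r then (if axF b = 1 ∧ axF a = 0 then v else 0) else 0))] : Fin 3 → ℝ) k =
      -(2 / 3) * v * ((if p ∧ axF a ≠ 0 ∧ axF b = 0 then H337.mm (axF a) k else 0) +
      (if r ∧ axF b ≠ 0 ∧ axF a = 0 then H337.mm (axF b) k else 0)) := by
    intro p r _ _ a b v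
    rcases a with _ | _ | _ <;> rcases b with _ | _ | _ <;>
    by_cases hp : p <;> by_cases hr : r <;>
    fin_cases k <;> simp [hp, hr, H337.mm, axF] <;> ring
  exact key (q = t.i) (q = t.j) t.a t.b t.coef

end One

/-! ### The sites -/

/-- The site with a given number: `(none, α) = α`, `(some q, α) = 3 (q + 1) + α`. -/
def site (m x : ℕ) : Option (Fin (m + 1)) × Fin 3 :=
  (if x / 3 = 0 then none else some (fi m (x / 3 - 1)), ⟨x % 3, Nat.mod_lt _ (by norm_num)⟩)

/-- Number of sites. -/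
def nS (m : ℕ) : ℕ := 3 * (m + 2)

/-- The numbering of the sites. -/
def siteE (m : ℕ) : Fin (nS m) ≃ Option (Fin (m + 1)) × Fin 3 where
  toFun x := site m x
  invFun p := match p with
    | (none, α) => ⟨α, by unfold nS; omega⟩
    | (some q, α) => ⟨3 * ((q : ℕ) + 1) + α, by unfold nS; omega⟩
  left_inv x := by
    have hx := x.2
    unfold nS at hx
    by_cases h : (x : ℕ) / 3 = 0
    · simp only [site, h, if_true]
      apply Fin.ext
      dsimp only
      omega
    · simp only [site, h, if_false]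
      apply Fin.ext
      dsimp only [fi]
      omega
  right_inv p := by
    obtain ⟨o, α⟩ := p
    have hα := α.2
    cases o with
    | none =>
      have h1 : (α : ℕ) / 3 = 0 := by omega
      simp only [site, h1, if_true]
      refine Prod.ext rfl (Fin.ext ?_)
      dsimp only
      omega
    | some q =>
      have h1 : (3 * ((q : ℕ) + 1) + α) / 3 = (q : ℕ) + 1 := by omega
      have h2 : ¬ ((q : ℕ) + 1 = 0) := by omega
      simp only [site, h1, h2, if_false]
      refine Prod.ext (congrArg some (Fin.ext ?_)) (Fin.ext ?_)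
      · dsimp only [fi]
        omega
      · dsimp only
        omega

theorem siteE_apply (m : ℕ) (x : Fin (nS m)) : siteE m x = site m x := rfl

/-! ### The coupling of two sites -/

theorem decF_coef (m : ℕ) (t : TN) : (decF m t).coef = (dec t).coef := rfl

/-- One term, two different blocks. -/
theorem conR_pair {m Q : ℕ} {t : TN} (ht : OkN (m + 1) Q t) {x y : ℕ} (hx : x / 3 ≠ 0)
    (hy : y / 3 ≠ 0) (hxm : x / 3 ≤ m + 1) (hym : y / 3 ≤ m + 1) (hxy : x / 3 ≠ y / 3) :
    ww (c1 (decF m t)) (fi m (x / 3 - 1)) (fi m (y / 3 - 1))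
      ⟨x % 3, Nat.mod_lt _ (by norm_num)⟩ ⟨y % 3, Nat.mod_lt _ (by norm_num)⟩ = conR t x y := by
  obtain ⟨hq, hi, hj, ha, hb, hne⟩ := ht
  rw [ww_c1]
  have ei : (decF m t).i = fi m t.2.1.1 := rfl
  have ej : (decF m t).j = fi m t.2.2.1 := rfl
  have ea : (decF m t).a = axN t.2.1.2 := rfl
  have eb : (decF m t).b = axN t.2.2.2 := rfl
  rw [ei, ej, ea, eb, decF_coef]
  have hfi : ∀ {u v : ℕ}, u / 3 ≠ 0 → u / 3 ≤ m + 1 → v < m + 1 →
      (fi m (u / 3 - 1) = fi m v ↔ v + 1 = u / 3) := by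
    intro u v hu hum hv
    constructor
    · intro h
      have := fi_inj (by omega) (by omega) h
      omega
    · intro h
      have : u / 3 - 1 = v := by omega
      rw [this]
  simp only [hfi hx hxm hi, hfi hy hym hj, hfi hy hym hi, hfi hx hxm hj, axF_axN_ne _ ha,
    axF_axN_ne _ hb]
  unfold conR con
  by_cases hab : t.2.1.2 ≠ 0 ∧ t.2.2.2 ≠ 0
  · rw [if_pos hab, if_pos hab]
    have ha' : t.2.1.2 = 1 ∨ t.2.1.2 = 2 := by omega
    have hb' : t.2.2.2 = 1 ∨ t.2.2.2 = 2 := by omega
    rw [mm_eq _ ha', mm_eq _ hb', mm_eq _ ha', mm_eq _ hb']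
    by_cases h1 : t.2.1.1 + 1 = x / 3 ∧ t.2.2.1 + 1 = y / 3
    · have h2 : ¬ (t.2.1.1 + 1 = y / 3 ∧ t.2.2.1 + 1 = x / 3) := by omega
      rw [if_pos h1, if_neg h2, if_pos h1, cval_pairC]
      ring
    · rw [if_neg h1, if_neg h1]
      by_cases h2 : t.2.1.1 + 1 = y / 3 ∧ t.2.2.1 + 1 = x / 3
      · rw [if_pos h2, if_pos h2, cval_pairC]
        ring
      · rw [if_neg h2, if_neg h2, cval_noC]
        ring
  · rw [if_neg hab, if_neg hab, zero_mul]
    have h3 : ¬ (t.2.1.1 + 1 = x / 3 ∧ t.2.1.1 + 1 = y / 3) := by omega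
    have h4 : ¬ (t.2.2.1 + 1 = x / 3 ∧ t.2.2.1 + 1 = y / 3) := by omega
    rw [if_neg h3, if_neg h4]
    split_ifs <;> rw [cval_noC, mul_zero]

theorem third_fin : ∀ a b : Fin 3, a ≠ b → ((third a b : Fin 3) : ℕ) = 3 - a - b := by
  decide

theorem third_aux (a b : ℕ) (ha : a < 3) (hb : b < 3) (h : a ≠ b) :
    third ⟨a, ha⟩ ⟨b, hb⟩ = (⟨3 - a - b, by omega⟩ : Fin 3) := by
  apply Fin.ext
  exact third_fin ⟨a, ha⟩ ⟨b, hb⟩ (fun e => h (congrArg Fin.val e))

theorem third_eq {x y : ℕ} (h : x % 3 ≠ y % 3) :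
    third ⟨x % 3, Nat.mod_lt _ (by norm_num)⟩ ⟨y % 3, Nat.mod_lt _ (by norm_num)⟩ =
      (⟨3 - x % 3 - y % 3, by omega⟩ : Fin 3) := third_aux _ _ _ _ h

/-- One term, the same block. -/
theorem conR_loc {m Q : ℕ} {t : TN} (ht : OkN (m + 1) Q t) {x y : ℕ} (hx : x / 3 ≠ 0)
    (hxm : x / 3 ≤ m + 1) (hxy : x / 3 = y / 3) (hne3 : x % 3 ≠ y % 3) :
    gg (h1 1 (decF m t)) (h1 2 (decF m t)) (fi m (x / 3 - 1))
      (third ⟨x % 3, Nat.mod_lt _ (by norm_num)⟩ ⟨y % 3, Nat.mod_lt _ (by norm_num)⟩) =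
      conR t x y := by
  obtain ⟨hq, hi, hj, ha, hb, hne⟩ := ht
  rw [third_eq hne3, gg_h1]
  have ei : (decF m t).i = fi m t.2.1.1 := rfl
  have ej : (decF m t).j = fi m t.2.2.1 := rfl
  have ea : (decF m t).a = axN t.2.1.2 := rfl
  have eb : (decF m t).b = axN t.2.2.2 := rfl
  rw [ei, ej, ea, eb, decF_coef]
  have hfi : ∀ {u v : ℕ}, u / 3 ≠ 0 → u / 3 ≤ m + 1 → v < m + 1 →
      (fi m (u / 3 - 1) = fi m v ↔ v + 1 = u / 3) := by
    intro u v hu hum hv
    constructor
    · intro h
      have := fi_inj (by omega) (by omega) h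
      omega
    · intro h
      have : u / 3 - 1 = v := by omega
      rw [this]
  have ha0 : axF (axN t.2.1.2) = 0 ↔ t.2.1.2 = 0 := by
    have := axF_axN_ne _ ha
    tauto
  have hb0 : axF (axN t.2.2.2) = 0 ↔ t.2.2.2 = 0 := by
    have := axF_axN_ne _ hb
    tauto
  simp only [hfi hx hxm hi, hfi hx hxm hj, axF_axN_ne _ ha, axF_axN_ne _ hb, ha0, hb0]
  unfold conR con
  rw [← hxy]
  by_cases ha1 : t.2.1.2 = 0
  · by_cases hb1 : t.2.2.2 = 0
    · simp [ha1, hb1, cval_noC]
    · have hb' : t.2.2.2 = 1 ∨ t.2.2.2 = 2 := by omega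
      rw [mm_eq _ hb']
      by_cases h1 : t.2.2.1 + 1 = x / 3
      · simp only [ha1, hb1, h1, ne_eq, not_true_eq_false, not_false_eq_true, false_and,
          and_false, and_self, and_true, true_and, if_false, if_true, zero_add, cval_locC]
        ring
      · simp [ha1, hb1, h1, cval_noC]
  · by_cases hb1 : t.2.2.2 = 0
    · have ha' : t.2.1.2 = 1 ∨ t.2.1.2 = 2 := by omega
      rw [mm_eq _ ha']
      by_cases h1 : t.2.1.1 + 1 = x / 3
      · simp only [ha1, hb1, h1, ne_eq, not_true_eq_false, not_false_eq_true, false_and,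
          and_false, and_self, and_true, true_and, if_false, if_true, add_zero, cval_locC]
        ring
      · simp [ha1, hb1, h1, cval_noC]
    · have := hne ha1 hb1
      have h1 : ¬ (t.2.1.1 + 1 = x / 3 ∧ t.2.2.1 + 1 = x / 3) := by omega
      have h2 : ¬ (t.2.2.1 + 1 = x / 3 ∧ t.2.1.1 + 1 = x / 3) := by omega
      simp only [ha1, hb1, h1, h2, ne_eq, not_false_eq_true, and_false, false_and, true_and,
        if_false, if_true, add_zero, cval_noC, mul_zero]

/-- The coupling of two sites. -/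
theorem JJ_eq {m Q : ℕ} {ts : List TN} (hts : ∀ t ∈ ts, OkN (m + 1) Q t) (B L J0 : ℕ) {x y : ℕ}
    (hxy : x < y) (hy : y < nS m) :
    JJ (cT (ts.map (decF m))) (hT 1 (ts.map (decF m))) (hT 2 (ts.map (decF m))) B L J0
      (site m x) (site m y) = baseN J0 L B x y + sumR ts x y := by
  unfold nS at hy
  have hym : y / 3 ≤ m + 1 := by omega
  have hxm : x / 3 ≤ m + 1 := by omega
  unfold site baseN
  by_cases hx0 : x / 3 = 0
  · have hs : sumR ts x y = 0 := by
      unfold sumR
      apply List.sum_eq_zero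
      intro z hz
      obtain ⟨t, _, rfl⟩ := List.mem_map.1 hz
      unfold conR con
      have h1 : ¬ (t.2.1.1 + 1 = x / 3 ∧ t.2.2.1 + 1 = y / 3) := by omega
      have h2 : ¬ (t.2.1.1 + 1 = y / 3 ∧ t.2.2.1 + 1 = x / 3) := by omega
      have h3 : ¬ (t.2.1.1 + 1 = x / 3 ∧ t.2.1.1 + 1 = y / 3) := by omega
      have h4 : ¬ (t.2.2.1 + 1 = x / 3 ∧ t.2.2.1 + 1 = y / 3) := by omega
      rw [if_neg h1, if_neg h2, if_neg h3, if_neg h4]
      split_ifs <;> rw [cval_noC, mul_zero]
    rw [hs, add_zero]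
    by_cases hy0 : y / 3 = 0
    · simp only [hx0, hy0, if_true]
      rfl
    · simp only [hx0, hy0, if_true, if_false]
      rw [if_neg (by omega)]
      rfl
  · have hy0 : y / 3 ≠ 0 := by omega
    simp only [hx0, hy0, if_false]
    by_cases he : x / 3 = y / 3
    · rw [if_pos he]
      have hfe : fi m (x / 3 - 1) = fi m (y / 3 - 1) := by rw [he]
      have hne3 : x % 3 ≠ y % 3 := by omega
      have hJ : ∀ (c : Fin (m + 1) → Fin (m + 1) → Fin 3 → Fin 3 → ℝ) (hx hz : Fin (m + 1) → ℝ)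
          (i j : Fin 3), JJ c hx hz B L J0 (some (fi m (x / 3 - 1)), i)
            (some (fi m (y / 3 - 1)), j) = B + gg hx hz (fi m (x / 3 - 1)) (third i j) := by
        intro c hx hz i j
        simp only [JJ]
        rw [if_pos hfe]
      rw [hJ, gg_hT]
      congr 1
      unfold sumR
      rw [List.map_map]
      congr 1
      refine List.map_congr_left fun t ht => ?_
      exact conR_loc (hts t ht) hx0 hxm he hne3
    · rw [if_neg he]
      have hfe : fi m (x / 3 - 1) ≠ fi m (y / 3 - 1) := fun h => by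
        have := fi_inj (by omega) (by omega) h
        omega
      have hJ : ∀ (c : Fin (m + 1) → Fin (m + 1) → Fin 3 → Fin 3 → ℝ) (hx hz : Fin (m + 1) → ℝ)
          (i j : Fin 3), JJ c hx hz B L J0 (some (fi m (x / 3 - 1)), i)
            (some (fi m (y / 3 - 1)), j) =
            J0 + ww c (fi m (x / 3 - 1)) (fi m (y / 3 - 1)) i j := by
        intro c hx hz i j
        simp only [JJ]
        rw [if_neg hfe]
      rw [hJ, ww_cT]
      congr 1
      unfold sumR
      rw [List.map_map]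
      congr 1
      refine List.map_congr_left fun t ht => ?_
      exact conR_pair (hts t ht) hx0 hy0 hxm hym he

end Vale.Agent.P370.H195
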