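import Vale.Agent.P370.H195.Main
import Vale.Agent.P370.H220.Clock
import Vale.Agent.P370.H337.Main

/-!
First half of line Q: every promise problem in QMA reduces in polynomial time to HEIS.
-/

namespace Vale.Agent.P370.H195

open Vale.Agent.P370.Heis

/-- Every promise problem in QMA reduces in polynomial time to HEIS. -/
theorem reducesTo {A : Set (List Bool) × Set (List Bool)} (hA : A ∈ classQMA) :
    ReducesTo A.1 A.2 :=
  reducesTo_of H220.upperStmt H220.lowerStmt H337.upper H337.lower hA

end Vale.Agent.P370.H195
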