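import Vale.Agent.P370.H195.Core

/-!
The Heisenberg instance of a list of terms.
-/

namespace Vale.Agent.P370.H195

open Finset
open Vale.Agent.P370.Heis
open Vale.Agent.P370.H220 (Ax Term)
open Vale.Agent.P370.H365 (fi)
open Vale.Agent.P370.H337 (JJ ww gg third hsw HL St)

/-! ### The parameters -/

/-- Base coupling of two blocks. -/
def qJ (Q T : ℕ) : ℕ := 2 * (T * Q)
/-- Bound of the weak part. -/
def qR2 (m Q T : ℕ) : ℕ := 17 * (m + 1) ^ 2 * (T * Q)
/-- Coupling to the central block. -/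
def qL (m Q T D : ℕ) : ℕ := 2 * (m + 2) ^ 3 * (2 * qR2 m Q T + 24 * D * qR2 m Q T ^ 2)
/-- Bound of everything outside the blocks. -/
def qR1 (m Q T D : ℕ) : ℕ := 9 * (m + 1) * qL m Q T D + qR2 m Q T
/-- Coupling inside a block. -/
def qB (m Q T D : ℕ) : ℕ := qR1 m Q T D + 8 * D * qR1 m Q T D ^ 2
/-- Integer weights. -/
def qW (m Q T D K : ℕ) (ts : List TN) (a b : ℕ) : ℕ :=
  wN (D * K) (qJ Q T) (qL m Q T D) (qB m Q T D) ts a b
/-- The edges. -/
def qE (m Q T D K : ℕ) (ts : List TN) : List (ℕ × ℕ) := edges (nS m) (qW m Q T D K ts)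
/-- The part of the threshold without the negative constants. -/
def qP (m Q T D K : ℕ) (ts : List TN) : ℕ :=
  (qE m Q T D K ts).length + 48 * (D * K) * (qL m Q T D * (4 * m + 3)) +
    120 * (D * K) * ((m + 1) * m * qJ Q T) + negK (D * K) ts + 16 * K + 3 * T * nS m ^ 2 + 3 * T
/-- The threshold. -/
def qk (m Q T D K : ℕ) (ts : List TN) : ℕ := qP m Q T D K ts - posK (D * K) ts

/-- The instance of HEIS. -/
def qCode (m Q T D K : ℕ) (ts : List TN) : Code := (nS m, qE m Q T D K ts, qk m Q T D K ts)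

/-! ### Inequalities -/

section Ineq
variable {m Q T D K : ℕ}

theorem qR2_ge : T * Q ≤ qR2 m Q T := by
  unfold qR2
  exact Nat.le_mul_of_pos_left _ (by positivity)

theorem qL_ge : 2 * (T * Q) ≤ qL m Q T D := by
  unfold qL
  have h := qR2_ge (m := m) (Q := Q) (T := T)
  calc 2 * (T * Q) ≤ 2 * qR2 m Q T + 24 * D * qR2 m Q T ^ 2 := by
        have := Nat.zero_le (24 * D * qR2 m Q T ^ 2)
        omega
    _ ≤ _ := Nat.le_mul_of_pos_left _ (by positivity)

theorem qR1_ge : qR2 m Q T ≤ qR1 m Q T D := by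
  unfold qR1
  omega

theorem qB_ge : qR2 m Q T ≤ qB m Q T D := by
  unfold qB
  have := qR1_ge (m := m) (Q := Q) (T := T) (D := D)
  omega

theorem qR2_big : 17 * (T * Q) ≤ qR2 m Q T := by
  unfold qR2
  calc 17 * (T * Q) = 17 * 1 * (T * Q) := by ring
    _ ≤ 17 * (m + 1) ^ 2 * (T * Q) := by
      gcongr
      exact Nat.one_le_pow _ _ (by omega)

theorem base_ge (x y : ℕ) : 2 * (T * Q) ≤ baseN (qJ Q T) (qL m Q T D) (qB m Q T D) x y := by
  unfold baseN
  split_ifs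
  · have := qB_ge (m := m) (Q := Q) (T := T) (D := D)
    have := qR2_big (m := m) (Q := Q) (T := T)
    omega
  · exact qL_ge
  · exact le_rfl

theorem neg_le {ts : List TN} {M : ℕ} (ht : ∀ t ∈ ts, OkN M Q t) (hT : ts.length ≤ T)
    (hK : 1 ≤ K) (hQ : 1 ≤ Q) (x y : ℕ) : negC K ts x y ≤ 75 * (K * (T * Q)) := by
  refine (negC_le ht x y).trans ?_
  have h1 : 1 ≤ K * Q := Nat.one_le_iff_ne_zero.2 (by positivity)
  calc ts.length * (72 * (K * Q) + 3) ≤ T * (75 * (K * Q)) := by gcongr; omega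
    _ = 75 * (K * (T * Q)) := by ring

theorem neg_le_base {ts : List TN} {M : ℕ} (ht : ∀ t ∈ ts, OkN M Q t) (hT : ts.length ≤ T)
    (hK : 1 ≤ K) (hQ : 1 ≤ Q) (x y : ℕ) :
    negC K ts x y ≤ 48 * K * baseN (qJ Q T) (qL m Q T D) (qB m Q T D) x y := by
  refine (neg_le ht hT hK hQ x y).trans ?_
  calc 75 * (K * (T * Q)) ≤ 48 * K * (2 * (T * Q)) := by
        have : 48 * K * (2 * (T * Q)) = 96 * (K * (T * Q)) := by ring
        omega
    _ ≤ _ := Nat.mul_le_mul_left _ (base_ge x y)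

theorem pos_le {ts : List TN} {M : ℕ} (ht : ∀ t ∈ ts, OkN M Q t) (hT : ts.length ≤ T)
    (hD : 1 ≤ D) (hK : 1 ≤ K) (hQ : 1 ≤ Q) : posK (D * K) ts ≤ qP m Q T D K ts := by
  have h1 : 1 ≤ D * K * Q := Nat.one_le_iff_ne_zero.2 (by positivity)
  have h2 : posK (D * K) ts ≤ 15 * (D * K * (T * Q)) := by
    refine (posK_le ht).trans ?_
    calc ts.length * (12 * (D * K * Q) + 3) ≤ T * (15 * (D * K * Q)) := by gcongr; omega
      _ = 15 * (D * K * (T * Q)) := by ring
  have h3 : 15 * (D * K * (T * Q)) ≤ 48 * (D * K) * (qL m Q T D * (4 * m + 3)) := by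
    calc 15 * (D * K * (T * Q)) ≤ 48 * (D * K) * (2 * (T * Q) * 1) := by
          have : 48 * (D * K) * (2 * (T * Q) * 1) = 96 * (D * K * (T * Q)) := by ring
          omega
      _ ≤ 48 * (D * K) * (qL m Q T D * (4 * m + 3)) := by
          gcongr
          · exact qL_ge
          · omega
  unfold qP
  omega

theorem W01_ge {ts : List TN} {M : ℕ} (ht : ∀ t ∈ ts, OkN M Q t) (hT : ts.length ≤ T)
    (hT1 : 1 ≤ T) (hD : 1 ≤ D) (hK : 1 ≤ K) (hQ : 1 ≤ Q) : nS m ≤ qW m Q T D K ts 0 1 := by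
  have hDK : 1 ≤ D * K := Nat.one_le_iff_ne_zero.2 (by positivity)
  have h1 := neg_le (x := 0) (y := 1) ht hT hDK hQ
  unfold qW wN
  have e : baseN (qJ Q T) (qL m Q T D) (qB m Q T D) 0 1 = qB m Q T D := rfl
  rw [e]
  have h2 := qB_ge (m := m) (Q := Q) (T := T) (D := D)
  have hTQ : 1 ≤ T * Q := Nat.one_le_iff_ne_zero.2 (by positivity)
  have h3 : nS m + 75 * (T * Q) ≤ 48 * qB m Q T D := by
    have h4 : 17 * (m + 1) * (T * Q) ≤ qR2 m Q T := by
      unfold qR2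
      gcongr
      nlinarith
    have h5 : 17 * (m + 1) * (T * Q) = 17 * (m * (T * Q)) + 17 * (T * Q) := by ring
    have h6 : m ≤ m * (T * Q) := Nat.le_mul_of_pos_right _ hTQ
    unfold nS
    omega
  have h7 : nS m + 75 * (D * K * (T * Q)) ≤ 48 * (D * K) * qB m Q T D := by
    calc nS m + 75 * (D * K * (T * Q)) ≤ D * K * nS m + 75 * (D * K * (T * Q)) := by
          gcongr
          exact Nat.le_mul_of_pos_left _ hDK
      _ = D * K * (nS m + 75 * (T * Q)) := by ring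
      _ ≤ D * K * (48 * qB m Q T D) := Nat.mul_le_mul_left _ h3
      _ = _ := by ring
  omega

end Ineq

theorem length_edges (n : ℕ) (W : ℕ → ℕ → ℕ) :
    ((edges n W).length : ℝ) = pairSum fun a b : Fin n => (W a b : ℝ) := by
  unfold edges pairSum
  rw [List.length_flatMap, sum_range_map]
  push_cast
  refine Finset.sum_congr rfl fun a _ => ?_
  rw [List.length_flatMap, sum_range_map]
  push_cast
  refine Finset.sum_congr rfl fun b _ => ?_
  unfold edgesAt
  by_cases h : (a : ℕ) < b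
  · rw [if_pos h, if_pos (by exact h), List.length_replicate]
  · rw [if_neg h, if_neg (by exact h)]
    simp

theorem good_qCode {m Q T D K M : ℕ} {ts : List TN} (ht : ∀ t ∈ ts, OkN M Q t)
    (hT : ts.length ≤ T) (hT1 : 1 ≤ T) (hD : 1 ≤ D) (hK : 1 ≤ K) (hQ : 1 ≤ Q) :
    Good (qCode m Q T D K ts) := by
  refine ⟨?_, ?_, fun e he => mem_edges he⟩
  · show 1 ≤ nS m
    unfold nS; omega
  · show nS m ≤ (qE m Q T D K ts).length
    exact (W01_ge ht hT hT1 hD hK hQ).trans (length_edges_ge (by norm_num) (by unfold nS; omega))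

/-! ### The energies -/

section Energy
variable {m Q T D K : ℕ} {ts : List TN}

/-- The couplings of the model. -/
noncomputable def qJJ (m Q T D : ℕ) (ts : List TN) :
    Option (Fin (m + 1)) × Fin 3 → Option (Fin (m + 1)) × Fin 3 → ℝ :=
  JJ (cT (ts.map (decF m))) (hT 1 (ts.map (decF m))) (hT 2 (ts.map (decF m))) (qB m Q T D)
    (qL m Q T D) (qJ Q T)

/-- The form of the instance. -/
theorem form_qE (ht : ∀ t ∈ ts, OkN (m + 1) Q t) (hl : ts.length ≤ T) (hD : 1 ≤ D) (hK : 1 ≤ K)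
    (hQ : 1 ≤ Q) (χ : (Option (Fin (m + 1)) × Fin 3 → Bool) → ℝ) :
    |Heis.form (nS m) (qE m Q T D K ts) (relab (siteE m) χ) -
      ((qE m Q T D K ts).length * (∑ s, χ s ^ 2) + 48 * (D * K) * hsw (qJJ m Q T D ts) χ)| ≤
      3 * T * nS m ^ 2 * ∑ s, χ s ^ 2 := by
  have hDK : 1 ≤ D * K := Nat.one_le_iff_ne_zero.2 (by positivity)
  unfold qE
  rw [form_edges, length_edges, ← nsq_relab (siteE m) χ,
    hsw_relab (siteE m) (qJJ m Q T D ts) (fun p p' => JJ_comm _ _ _ _ _ _ p p')]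
  have h := abs_wForm_sub_le (n := nS m) (fun a b => (qW m Q T D K ts a b : ℝ))
    (fun a b => qJJ m Q T D ts (siteE m a) (siteE m b)) (48 * (D * K)) (3 * T) (by positivity)
    (fun a b hab => by
      have h1 : qJJ m Q T D ts (siteE m a) (siteE m b) =
          baseN (qJ Q T) (qL m Q T D) (qB m Q T D) a b + sumR ts a b :=
        JJ_eq ht _ _ _ hab b.2
      have h2 := wN_spec (neg_le_base (m := m) (D := D) ht hl hDK hQ (a : ℕ) (b : ℕ))
      rw [h1]
      push_cast at h2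
      refine h2.trans ?_
      have : (ts.length : ℝ) ≤ T := by exact_mod_cast hl
      linarith) (relab (siteE m) χ)
  exact h

theorem NN_eq : H337.NN (Fin (m + 1)) = m + 1 := by
  unfold H337.NN
  rw [Fintype.card_fin]
  push_cast
  ring

theorem Eoff_eq (L J0 : ℝ) : H337.Eoff (cT (ts.map (decF m))) L J0 =
    L * (4 * m + 3) + 5 / 2 * ((m + 1) * m) * J0 := by
  unfold H337.Eoff
  rw [NN_eq]
  simp only [cT_zero, Finset.sum_const_zero]
  ring

theorem okT (ht : ∀ t ∈ ts, OkN (m + 1) Q t) :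
    ∀ t ∈ ts.map (decF m), t.a = .I ∨ t.b = .I ∨ t.i ≠ t.j := by
  intro t' h'
  obtain ⟨t, h, rfl⟩ := List.mem_map.1 h'
  have ok := ht t h
  have ea : (decF m t).a = axN t.2.1.2 := rfl
  have eb : (decF m t).b = axN t.2.2.2 := rfl
  have ei : (decF m t).i = fi m t.2.1.1 := rfl
  have ej : (decF m t).j = fi m t.2.2.1 := rfl
  rw [ea, eb, ei, ej]
  by_cases ha : t.2.1.2 = 0
  · left; rw [ha]; rfl
  · by_cases hb : t.2.2.2 = 0
    · right; left; rw [hb]; rfl
    · right; right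
      intro h'
      exact ok.ne ha hb (fi_inj (by have := ok.i; omega) (by have := ok.j; omega) h')

theorem qk_cast (ht : ∀ t ∈ ts, OkN (m + 1) Q t) (hl : ts.length ≤ T) (hD : 1 ≤ D) (hK : 1 ≤ K)
    (hQ : 1 ≤ Q) : (qk m Q T D K ts : ℝ) = (qE m Q T D K ts).length +
      48 * (D * K) * (qL m Q T D * (4 * m + 3) + 5 / 2 * ((m + 1) * m) * qJ Q T) +
      16 * K + 3 * T * nS m ^ 2 + 3 * T - ((posK (D * K) ts : ℝ) - negK (D * K) ts) := by
  unfold qk
  rw [Nat.cast_sub (pos_le ht hl hD hK hQ)]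
  unfold qP
  push_cast
  ring

theorem qCode_yes (hU : H337.UpperStmt) (ht : ∀ t ∈ ts, OkN (m + 1) Q t) (hl : ts.length ≤ T)
    (hT1 : 1 ≤ T) (hD : 1 ≤ D) (hK : 1 ≤ K) (hQ : 1 ≤ Q)
    (h : ∃ ψ : (Fin (m + 1) → Bool) → ℝ, 0 < H220.sq ψ ∧
      H220.form (ts.map (decF m)) ψ ≤ 1 / (3 * D) * H220.sq ψ) :
    qCode m Q T D K ts ∈ Heis.Yes := by
  suffices hs : ∃ χ : (Fin (nS m) → Bool) → ℝ, 0 < nsq χ ∧
      Heis.form (nS m) (qE m Q T D K ts) χ ≤ (qk m Q T D K ts : ℝ) * nsq χ from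
    ⟨good_qCode ht hl hT1 hD hK hQ, hs⟩
  obtain ⟨ψ, hψ, hle⟩ := h
  rw [form_list _ (okT ht)] at hle
  set l := ts.map (decF m) with hl'
  obtain ⟨χ, hχ, hle'⟩ := hU (Fin (m + 1)) (cT l) (H195.hT 1 l) (H195.hT 2 l) (qB m Q T D)
    (qL m Q T D) (qJ Q T) (1 / (3 * D) - kT l) ⟨ψ, hψ, by
      have e : H337.sq ψ = H220.sq ψ := rfl
      rw [e]
      linarith⟩
  refine ⟨relab (siteE m) χ, by rw [nsq_relab]; exact hχ, ?_⟩
  have h1 := form_qE (K := K) ht hl hD hK hQ χ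
  have h2 := sumK_spec (D * K) m ht
  rw [hl', Eoff_eq] at hle'
  rw [nsq_relab, qk_cast ht hl hD hK hQ]
  change hsw (qJJ m Q T D ts) χ ≤ _ at hle'
  set S := ∑ s, χ s ^ 2 with hS
  set X := hsw (qJJ m Q T D ts) χ with hX
  set F := Heis.form (nS m) (qE m Q T D K ts) (relab (siteE m) χ) with hF
  have hDr : (0 : ℝ) < D := by exact_mod_cast hD
  have hKr : (0 : ℝ) < K := by exact_mod_cast hK
  have hlT : (ts.length : ℝ) ≤ T := by exact_mod_cast hl
  rw [abs_le] at h1 h2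
  have h3 : F ≤ (qE m Q T D K ts).length * S + 48 * (D * K) * X + 3 * T * nS m ^ 2 * S := by
    linarith [h1.2]
  have h4 : 48 * ((D : ℝ) * K) * X ≤ 48 * (D * K) * ((qL m Q T D * (4 * m + 3) +
      5 / 2 * ((m + 1) * m) * qJ Q T + (1 / (3 * D) - kT l)) * S) := by
    gcongr
  have h5 : 48 * ((D : ℝ) * K) * ((qL m Q T D * (4 * m + 3) +
      5 / 2 * ((m + 1) * m) * qJ Q T + (1 / (3 * D) - kT l)) * S) =
      (48 * (D * K) * (qL m Q T D * (4 * m + 3) + 5 / 2 * ((m + 1) * m) * qJ Q T) + 16 * K -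
        48 * (D * K) * kT l) * S := by
    have : 48 * ((D : ℝ) * K) * (1 / (3 * D)) = 16 * K := by
      field_simp
      norm_num
    calc _ = (48 * (D * K) * (qL m Q T D * (4 * m + 3) + 5 / 2 * ((m + 1) * m) * qJ Q T) +
          48 * ((D : ℝ) * K) * (1 / (3 * D)) - 48 * (D * K) * kT l) * S := by ring
      _ = _ := by rw [this]
  rw [h5] at h4
  have h6 : ((posK (D * K) ts : ℝ) - negK (D * K) ts) - 48 * (D * K) * kT l ≤ 3 * T := by
    have := h2.2
    push_cast at this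
    linarith
  have h7 : F ≤ ((qE m Q T D K ts).length +
      48 * (D * K) * (qL m Q T D * (4 * m + 3) + 5 / 2 * ((m + 1) * m) * qJ Q T) +
      16 * K + 3 * T * nS m ^ 2 + (- (48 * (D * K) * kT l))) * S := by
    refine (h3.trans (add_le_add_left (add_le_add_right h4 _) _)).trans (le_of_eq ?_)
    ring
  refine h7.trans ?_
  refine mul_le_mul_of_nonneg_right ?_ hχ.le
  linarith

theorem qCode_no (hL : H337.LowerStmt) (ht : ∀ t ∈ ts, OkN (m + 1) Q t) (hl : ts.length ≤ T)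
    (hT1 : 1 ≤ T) (hD : 1 ≤ D) (hK : 1 ≤ K) (hQ : 1 ≤ Q)
    (hK4 : 6 * T * nS m ^ 2 + 6 * T + 1 ≤ 4 * K)
    (h : ∀ ψ : (Fin (m + 1) → Bool) → ℝ,
      1 / (2 * D) * H220.sq ψ ≤ H220.form (ts.map (decF m)) ψ) :
    qCode m Q T D K ts ∈ Heis.No := by
  suffices hs : ∀ χ : (Fin (nS m) → Bool) → ℝ,
      ((qk m Q T D K ts : ℝ) + 1) * nsq χ ≤ Heis.form (nS m) (qE m Q T D K ts) χ from
    ⟨good_qCode ht hl hT1 hD hK hQ, hs⟩
  have hDr : (0 : ℝ) < D := by exact_mod_cast hD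
  have hKr : (0 : ℝ) < K := by exact_mod_cast hK
  have hlT : (ts.length : ℝ) ≤ T := by exact_mod_cast hl
  set l := ts.map (decF m) with hl'
  have hm0 : (0 : ℝ) ≤ m := Nat.cast_nonneg m
  have key := hL (Fin (m + 1)) (cT l) (H195.hT 1 l) (H195.hT 2 l) (qB m Q T D) (qL m Q T D)
    (qJ Q T) (qR2 m Q T) (qR1 m Q T D) (1 / (24 * D)) (1 / (24 * D)) (1 / (2 * D) - kT l)
    (RW_le ht hl rfl)
    (by rw [NN_eq]; unfold qR1; push_cast; exact le_rfl)
    (by positivity) (by positivity) (by positivity) (by positivity)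
    (by
      rw [NN_eq]
      unfold qL
      push_cast
      generalize (qR2 m Q T : ℝ) = R
      have e : (2 * ((m : ℝ) + 2) ^ 3 * (2 * R + 24 * D * R ^ 2)) / (2 * ((m : ℝ) + 1 + 1) ^ 3) =
          2 * R + 24 * D * R ^ 2 := by
        have : (m : ℝ) + 1 + 1 = m + 2 := by ring
        rw [this]
        field_simp
      rw [e]
      have : 1 / (24 * (D : ℝ)) * (2 * R + 24 * D * R ^ 2 - 2 * R) = R ^ 2 := by
        field_simp
        ring
      rw [this])
    (by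
      unfold qB
      push_cast
      have hR0 : (0 : ℝ) ≤ qR1 m Q T D := Nat.cast_nonneg _
      generalize (qR1 m Q T D : ℝ) = R at hR0 ⊢
      have : 1 / (24 * (D : ℝ)) * (3 * (R + 8 * D * R ^ 2) - 2 * R) =
          R ^ 2 + 1 / (24 * (D : ℝ)) * R := by
        field_simp
        ring
      rw [this]
      have : 0 ≤ 1 / (24 * (D : ℝ)) * R := by positivity
      linarith)
    (by
      intro η
      have h1 := h η
      rw [form_list _ (okT ht)] at h1
      have e : H337.sq η = H220.sq η := rfl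
      rw [e]
      linarith)
  intro χ
  have hχ : relab (siteE m) (fun s => χ (s ∘ siteE m)) = χ := relab_surj (siteE m) χ
  set χ' : (Option (Fin (m + 1)) × Fin 3 → Bool) → ℝ := fun s => χ (s ∘ siteE m) with hχ'
  have h1 := form_qE (K := K) ht hl hD hK hQ χ'
  have h2 := sumK_spec (D * K) m ht
  have hle' := key χ'
  rw [hl', Eoff_eq] at hle'
  rw [← hχ, nsq_relab, qk_cast ht hl hD hK hQ]
  change _ ≤ hsw (qJJ m Q T D ts) χ' at hle'
  have hS0 : 0 ≤ ∑ s, χ' s ^ 2 := Finset.sum_nonneg fun _ _ => sq_nonneg _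
  set S := ∑ s, χ' s ^ 2 with hS
  set X := hsw (qJJ m Q T D ts) χ' with hX
  set F := Heis.form (nS m) (qE m Q T D K ts) (relab (siteE m) χ') with hF
  rw [abs_le] at h1 h2
  have h3 : (qE m Q T D K ts).length * S + 48 * (D * K) * X - 3 * T * nS m ^ 2 * S ≤ F := by
    linarith [h1.1]
  have h4 : 48 * ((D : ℝ) * K) * ((qL m Q T D * (4 * m + 3) +
      5 / 2 * ((m + 1) * m) * qJ Q T + (1 / (2 * D) - kT l) - 1 / (24 * D) - 1 / (24 * D)) * S) ≤
      48 * (D * K) * X := by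
    gcongr
  have h5 : 48 * ((D : ℝ) * K) * ((qL m Q T D * (4 * m + 3) +
      5 / 2 * ((m + 1) * m) * qJ Q T + (1 / (2 * D) - kT l) - 1 / (24 * D) - 1 / (24 * D)) * S) =
      (48 * (D * K) * (qL m Q T D * (4 * m + 3) + 5 / 2 * ((m + 1) * m) * qJ Q T) + 20 * K -
        48 * (D * K) * kT l) * S := by
    have : 48 * ((D : ℝ) * K) * (1 / (2 * D) - 1 / (24 * D) - 1 / (24 * D)) = 20 * K := by
      field_simp
      norm_num
    calc _ = (48 * (D * K) * (qL m Q T D * (4 * m + 3) + 5 / 2 * ((m + 1) * m) * qJ Q T) +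
          48 * ((D : ℝ) * K) * (1 / (2 * D) - 1 / (24 * D) - 1 / (24 * D)) -
          48 * (D * K) * kT l) * S := by ring
      _ = _ := by rw [this]
  rw [h5] at h4
  have h6 : -(3 * T) ≤ ((posK (D * K) ts : ℝ) - negK (D * K) ts) - 48 * (D * K) * kT l := by
    have := h2.1
    push_cast at this
    linarith
  have h7 : ((qE m Q T D K ts).length +
      48 * (D * K) * (qL m Q T D * (4 * m + 3) + 5 / 2 * ((m + 1) * m) * qJ Q T) +
      20 * K - 3 * T * nS m ^ 2 + (- (48 * (D * K) * kT l))) * S ≤ F := by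
    refine le_trans (le_of_eq ?_) ((sub_le_sub_right (add_le_add_right h4 _) _).trans h3)
    ring
  refine le_trans ?_ h7
  refine mul_le_mul_of_nonneg_right ?_ hS0
  have hK4' : 6 * (T : ℝ) * nS m ^ 2 + 6 * T + 1 ≤ 4 * K := by exact_mod_cast hK4
  linarith

end Energy

end Vale.Agent.P370.H195
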