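import Vale.Agent.P370.H195.Inst

/-!
Every promise problem in QMA reduces to HEIS, given the clock (`H220`) and the Heisenberg gadgets
(`H337`).
-/

namespace Vale.Agent.P370.H195

open Vale.Agent.Lib.PolyTime Vale.Agent.P370.Heis Vale.Agent.P333
open Vale.Agent.P370.H220 (W1 W2 W3 KK TT)
open Vale.Agent.P370.H365 (nn steps ancN SOK compile compiled compiled_wf)

/-! ### Polynomial time and polynomially bounded -/

section PTB
variable {A : Set Word} {α : Type} [Enc α]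

/-- A computable and polynomially bounded number. -/
structure PTB (A : Set Word) (f : α → ℕ) : Prop where
  pt : PT A f
  bd : PBd f

theorem PTB.const (n : ℕ) : PTB A (fun _ : α => n) := ⟨PT.const n, PBd.const n⟩

theorem PTB.add {f g : α → ℕ} (hf : PTB A f) (hg : PTB A g) : PTB A (fun a => f a + g a) :=
  ⟨hf.pt.add hg.pt, hf.bd.add hg.bd⟩

theorem PTB.mul {f g : α → ℕ} (hf : PTB A f) (hg : PTB A g) : PTB A (fun a => f a * g a) :=
  ⟨hf.pt.mul hg.pt, hf.bd.mul hg.bd⟩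

theorem PTB.pow {f : α → ℕ} (hf : PTB A f) (k : ℕ) : PTB A (fun a => f a ^ k) :=
  ⟨hf.pt.powConst k, hf.bd.pow k⟩

theorem PTB.cmul {f : α → ℕ} (c : ℕ) (hf : PTB A f) : PTB A (fun a => c * f a) :=
  (PTB.const c).mul hf

theorem PTB.addc {f : α → ℕ} (hf : PTB A f) (c : ℕ) : PTB A (fun a => f a + c) :=
  hf.add (PTB.const c)

theorem PTB.nS {m : α → ℕ} (hm : PTB A m) : PTB A (fun a => nS (m a)) :=
  (PTB.const 3).mul (hm.addc 2)

theorem PTB.qJ {Q T : α → ℕ} (hQ : PTB A Q) (hT : PTB A T) : PTB A (fun a => qJ (Q a) (T a)) :=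
  (PTB.const 2).mul (hT.mul hQ)

theorem PTB.qR2 {m Q T : α → ℕ} (hm : PTB A m) (hQ : PTB A Q) (hT : PTB A T) :
    PTB A (fun a => qR2 (m a) (Q a) (T a)) :=
  ((PTB.const 17).mul ((hm.addc 1).pow 2)).mul (hT.mul hQ)

theorem PTB.qL {m Q T D : α → ℕ} (hm : PTB A m) (hQ : PTB A Q) (hT : PTB A T) (hD : PTB A D) :
    PTB A (fun a => qL (m a) (Q a) (T a) (D a)) :=
  ((PTB.const 2).mul ((hm.addc 2).pow 3)).mul (((PTB.const 2).mul (PTB.qR2 hm hQ hT)).add
    (((PTB.const 24).mul hD).mul ((PTB.qR2 hm hQ hT).pow 2)))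

theorem PTB.qR1 {m Q T D : α → ℕ} (hm : PTB A m) (hQ : PTB A Q) (hT : PTB A T) (hD : PTB A D) :
    PTB A (fun a => qR1 (m a) (Q a) (T a) (D a)) :=
  (((PTB.const 9).mul (hm.addc 1)).mul (PTB.qL hm hQ hT hD)).add (PTB.qR2 hm hQ hT)

theorem PTB.qB {m Q T D : α → ℕ} (hm : PTB A m) (hQ : PTB A Q) (hT : PTB A T) (hD : PTB A D) :
    PTB A (fun a => qB (m a) (Q a) (T a) (D a)) :=
  (PTB.qR1 hm hQ hT hD).add (((PTB.const 8).mul hD).mul ((PTB.qR1 hm hQ hT hD).pow 2))

theorem PTB.comp {β : Type} [Enc β] {f : α → ℕ} (hf : PTB A f) {g : β → α} (hg : PT A g) :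
    PTB A (fun b => f (g b)) := ⟨hf.pt.comp hg, hf.bd.comp hg⟩

theorem PT_apK {K : α → ℕ} {t : α → TN} (hK : PT A K) (ht : PT A t) :
    PT A (fun a => apK (K a) (t a)) := by
  unfold apK
  exact PT.ite (p := fun a => (t a).2.1.2 = 0 ∧ (t a).2.2.2 = 0)
    (PT.decide_and (PT.eqNat ht.snd.fst.snd (PT.const 0)) (PT.eqNat ht.snd.snd.snd (PT.const 0)))
    (PT_apx 0 ht.fst.snd.snd (hK.mul (ht.fst.snd.fst.mul (PT.const 6)))) (PT.const 0)

theorem PT_sgK {t : α → TN} (ht : PT A t) : PT A (fun a => sgK (t a)) :=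
  ht.fst.fst.xor (PT_neg ht.fst.snd.snd)

theorem PT_posK {K : α → ℕ} {ts : α → List TN} (hK : PT A K) (hts : PT A ts) :
    PT A (fun a => posK (K a) (ts a)) := by
  unfold posK
  have hK' : PT A (fun q : α × TN => K q.1) := hK.comp PT.fst'
  have ht : PT A (fun q : α × TN => q.2) := PT.snd'
  exact PT.sum (PT.map (f := fun a t => if sgK t then 0 else apK (K a) t) hts
    (PT.ite (p := fun q : α × TN => sgK q.2 = true) ((PT_sgK ht).congr fun q => by simp)
      (PT.const 0) (PT_apK hK' ht)))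

theorem PT_negK {K : α → ℕ} {ts : α → List TN} (hK : PT A K) (hts : PT A ts) :
    PT A (fun a => negK (K a) (ts a)) := by
  unfold negK
  have hK' : PT A (fun q : α × TN => K q.1) := hK.comp PT.fst'
  have ht : PT A (fun q : α × TN => q.2) := PT.snd'
  exact PT.sum (PT.map (f := fun a t => if sgK t then apK (K a) t else 0) hts
    (PT.ite (p := fun q : α × TN => sgK q.2 = true) ((PT_sgK ht).congr fun q => by simp)
      (PT_apK hK' ht) (PT.const 0)))

theorem PT_qE {m Q T D K : α → ℕ} {ts : α → List TN} (hm : PTB A m) (hQ : PTB A Q)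
    (hT : PTB A T) (hD : PTB A D) (hK : PTB A K) (hts : PT A ts)
    (hok : ∀ a, ∀ t ∈ ts a, OkN (m a + 1) (Q a) t) (hlen : ∀ a, (ts a).length ≤ T a) :
    PT A (fun a => qE (m a) (Q a) (T a) (D a) (K a) (ts a)) := by
  unfold qE
  refine PT_edges (W := fun a => qW (m a) (Q a) (T a) (D a) (K a) (ts a)) (PTB.nS hm).pt
    (PTB.nS hm).bd ?_ ?_
  · have h1 : PT A (fun q : (α × ℕ) × ℕ => q.1.1) := PT.fst'.fst
    have hx : PT A (fun q : (α × ℕ) × ℕ => q.1.2) := PT.fst'.snd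
    have hy : PT A (fun q : (α × ℕ) × ℕ => q.2) := PT.snd'
    unfold qW
    exact PT_wN ((hD.mul hK).pt.comp h1) ((PTB.qJ hQ hT).pt.comp h1)
      ((PTB.qL hm hQ hT hD).pt.comp h1) ((PTB.qB hm hQ hT hD).pt.comp h1) (hts.comp h1) hx hy
  · have h1 : PT A (fun q : (α × ℕ) × ℕ => q.1.1) := PT.fst'.fst
    have hb : PTB A (fun a => 48 * (D a * K a) * (qB (m a) (Q a) (T a) (D a) +
        (qL (m a) (Q a) (T a) (D a) + qJ (Q a) (T a))) +
        T a * (72 * (D a * K a * Q a) + 3)) :=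
      (((PTB.const 48).mul (hD.mul hK)).mul ((PTB.qB hm hQ hT hD).add
        ((PTB.qL hm hQ hT hD).add (PTB.qJ hQ hT)))).add
        (hT.mul (((PTB.const 72).mul ((hD.mul hK).mul hQ)).addc 3))
    refine (hb.comp h1).bd.mono fun q => ?_
    obtain ⟨⟨a, x⟩, y⟩ := q
    show qW (m a) (Q a) (T a) (D a) (K a) (ts a) x y ≤ 48 * (D a * K a) *
      (qB (m a) (Q a) (T a) (D a) + (qL (m a) (Q a) (T a) (D a) + qJ (Q a) (T a))) +
      T a * (72 * (D a * K a * Q a) + 3)
    unfold qW wN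
    refine (Nat.sub_le _ _).trans ?_
    refine Nat.add_le_add ?_ ?_
    · refine Nat.mul_le_mul_left _ ?_
      unfold baseN
      split_ifs <;> omega
    · refine (posC_le (hok a) x y).trans ?_
      exact Nat.mul_le_mul_right _ (hlen a)

theorem PT_qCode {m Q T D K : α → ℕ} {ts : α → List TN} (hm : PTB A m) (hQ : PTB A Q)
    (hT : PTB A T) (hD : PTB A D) (hK : PTB A K) (hts : PT A ts)
    (hok : ∀ a, ∀ t ∈ ts a, OkN (m a + 1) (Q a) t) (hlen : ∀ a, (ts a).length ≤ T a) :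
    PT A (fun a => qCode (m a) (Q a) (T a) (D a) (K a) (ts a)) := by
  unfold qCode
  have hE := PT_qE hm hQ hT hD hK hts hok hlen
  have hDK := (hD.mul hK).pt
  refine (PTB.nS hm).pt.pair (hE.pair ?_)
  unfold qk qP
  refine PT.sub ?_ (PT_posK hDK hts)
  refine PT.add (PT.add (PT.add (PT.add (PT.add (PT.add hE.length ?_) ?_) ?_) ?_) ?_) ?_
  · exact ((PT.const 48).mul hDK).mul ((PTB.qL hm hQ hT hD).mul ((hm.cmul 4).addc 3)).pt
  · exact ((PT.const 120).mul hDK).mul (((hm.addc 1).mul hm).mul (PTB.qJ hQ hT)).pt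
  · exact PT_negK hDK hts
  · exact (hK.cmul 16).pt
  · exact ((hT.cmul 3).mul ((PTB.nS hm).pow 2)).pt
  · exact (hT.cmul 3).pt

end PTB

/-! ### The reduction -/

/-- Bound of the coefficients. -/
def xQ (A l : ℕ) : ℕ := 4 * W1 A l + 8 * W2 A l + 34
/-- Bound of the number of terms. -/
def xT (A l : ℕ) : ℕ := 24 * (l + 2) + 4 * A + 13
/-- Precision of the clock. -/
def xD (l : ℕ) : ℕ := TT l + 1
/-- Precision of the rounding. -/
def xK (A l m : ℕ) : ℕ := 2 * (xT A l * nS m ^ 2) + 2 * xT A l + 1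

/-- The instance of HEIS of a circuit. -/
def heisCode (C : Circuit) : Code :=
  qCode (mm C) (xQ C.anc (steps C).length) (xT C.anc (steps C).length) (xD (steps C).length)
    (xK C.anc (steps C).length (mm C)) (hamN C)

section
variable {C : Circuit}

theorem ok_hamN (h : ∀ g ∈ steps C, SOK (nn C) g) :
    ∀ t ∈ hamN C, OkN (mm C + 1) (xQ C.anc (steps C).length) t := by
  have e : mm C + 1 = nn C + 1 + 2 * ((steps C).length + 2) := by unfold mm; ring
  rw [e]
  unfold hamN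
  refine ok_hamWN ?_ ?_ ?_ ?_ (by omega) ?_ (okS_steps h)
  · unfold xQ; omega
  · unfold xQ; omega
  · unfold xQ W3; omega
  · unfold xQ; omega
  · intro i hi
    unfold ancN at hi
    simp only [List.mem_map, List.mem_range] at hi
    obtain ⟨k, hk, rfl⟩ := hi
    unfold nn
    omega

theorem length_hamN : (hamN C).length ≤ xT C.anc (steps C).length := by
  unfold hamN xT
  have := length_hamWN (W1 C.anc (steps C).length) (W2 C.anc (steps C).length) W3 (nn C + 1)
    (ancN C) 0 (steps C)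
  rwa [length_ancN] at this

theorem xK_ge (A l m : ℕ) : 6 * xT A l * nS m ^ 2 + 6 * xT A l + 1 ≤ 4 * xK A l m := by
  unfold xK
  have : 6 * xT A l * nS m ^ 2 = 6 * (xT A l * nS m ^ 2) := by ring
  omega

theorem heisCode_yes (hU : H220.UpperStmt) (hU' : H337.UpperStmt)
    (h : ∀ g ∈ steps C, SOK (nn C) g)
    (hyes : ∃ φ : (Fin (nn C + 1) → Bool) → ℝ, 0 < H220.sq φ ∧
      H220.AncZero (H365.ancF C) φ ∧
      2 / 3 * H220.sq φ ≤ H220.acc (H365.fi (nn C) 0) (H220.run (compiled C) φ)) :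
    heisCode C ∈ Heis.Yes := by
  obtain ⟨ψ, hψ, hle⟩ := hU (Fin (nn C + 1)) (Fin (mm C + 1)) (dat C) (caF C) (cbF C)
    (H365.ancF C) (H365.fi (nn C) 0) (compiled C) (lay C) (compiled_wf h) hyes
  rw [form_ham h] at hle
  have hl : (compiled C).length = (steps C).length := by simp [compiled]
  rw [hl] at hle
  refine qCode_yes hU' (ok_hamN h) length_hamN ?_ ?_ ?_ ?_ ⟨ψ, hψ, ?_⟩
  · unfold xT; omega
  · unfold xD; omega
  · unfold xK; omega
  · unfold xQ; omega
  · unfold xD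
    push_cast
    exact hle

theorem heisCode_no (hL : H220.LowerStmt) (hL' : H337.LowerStmt)
    (h : ∀ g ∈ steps C, SOK (nn C) g)
    (hno : ∀ φ : (Fin (nn C + 1) → Bool) → ℝ, H220.AncZero (H365.ancF C) φ →
      H220.acc (H365.fi (nn C) 0) (H220.run (compiled C) φ) ≤ 1 / 3 * H220.sq φ) :
    heisCode C ∈ Heis.No := by
  have key := hL (Fin (nn C + 1)) (Fin (mm C + 1)) (dat C) (caF C) (cbF C)
    (H365.ancF C) (H365.fi (nn C) 0) (compiled C) (lay C) (compiled_wf h) hno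
  have hl : (compiled C).length = (steps C).length := by simp [compiled]
  rw [hl] at key
  refine qCode_no hL' (ok_hamN h) length_hamN ?_ ?_ ?_ ?_ (xK_ge _ _ _) fun ψ => ?_
  · unfold xT; omega
  · unfold xD; omega
  · unfold xK; omega
  · unfold xQ; omega
  · have := key ψ
    rw [form_ham h] at this
    unfold xD
    push_cast
    exact this

end

theorem PT_heisCode {V : List Bool → Circuit}
    (hV : PT ∅ (fun x : Raw => (Un.mk (V x.w).wit, Un.mk (V x.w).anc, steps (V x.w))))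
    (hok : ∀ x, ∀ g ∈ steps (V x), SOK (nn (V x)) g) :
    PT ∅ (fun x : Raw => heisCode (V x.w)) := by
  have hs : PT ∅ (fun x : Raw => steps (V x.w)) := hV.snd.snd
  have hw : PTB ∅ (fun x : Raw => (V x.w).wit) := ⟨hV.fst.unVal, PBd.unVal hV.fst⟩
  have ha : PTB ∅ (fun x : Raw => (V x.w).anc) := ⟨hV.snd.fst.unVal, PBd.unVal hV.snd.fst⟩
  have hl : PTB ∅ (fun x : Raw => (steps (V x.w)).length) := ⟨hs.length, PBd.length hs⟩
  have hn : PTB ∅ (fun x : Raw => nn (V x.w)) := hw.add ha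
  have hm : PTB ∅ (fun x : Raw => mm (V x.w)) := hn.add ((hl.addc 2).cmul 2)
  have hTT : PTB ∅ (fun x : Raw => TT (steps (V x.w)).length) := (hl.addc 2).cmul 2
  have hW2 : PTB ∅ (fun x : Raw => W2 (V x.w).anc (steps (V x.w)).length) :=
    ((hTT.addc 1).pow 2).mul ((((ha.cmul 17).addc 1).cmul 16).addc 1)
  have hKK : PTB ∅ (fun x : Raw => KK (V x.w).anc (steps (V x.w)).length) :=
    ((hW2.mul (hl.addc 4)).add (ha.cmul 17)).addc 1
  have hW1 : PTB ∅ (fun x : Raw => W1 (V x.w).anc (steps (V x.w)).length) :=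
    (hKK.add (((PTB.const 12).mul (hTT.addc 1)).mul (hKK.pow 2))).addc 1
  have hQ : PTB ∅ (fun x : Raw => xQ (V x.w).anc (steps (V x.w)).length) :=
    ((hW1.cmul 4).add (hW2.cmul 8)).addc 34
  have hT : PTB ∅ (fun x : Raw => xT (V x.w).anc (steps (V x.w)).length) :=
    (((hl.addc 2).cmul 24).add (ha.cmul 4)).addc 13
  have hD : PTB ∅ (fun x : Raw => xD (steps (V x.w)).length) := hTT.addc 1
  have hK : PTB ∅ (fun x : Raw => xK (V x.w).anc (steps (V x.w)).length (mm (V x.w))) :=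
    (((hT.mul ((PTB.nS hm).pow 2)).cmul 2).add (hT.cmul 2)).addc 1
  have hanc : PT ∅ (fun x : Raw => ancN (V x.w)) := by
    unfold ancN
    exact PT.map (f := fun (x : Raw) i => (V x.w).wit + i) (PT.range ha.pt ha.bd)
      (PT.add (hw.pt.comp PT.fst') PT.snd')
  have hts : PT ∅ (fun x : Raw => hamN (V x.w)) := by
    unfold hamN
    exact PT_hamWN hW1.pt hW2.pt (PT.const W3) (hn.addc 1).pt hanc (PT.const 0) hs
  exact PT_qCode hm hQ hT hD hK hts (fun x => ok_hamN (hok x.w)) (fun x => length_hamN)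

/-- **First half of line Q**: every promise problem in QMA reduces to HEIS, given the clock and the
Heisenberg gadgets. -/
theorem reducesTo_of (hU : H220.UpperStmt) (hL : H220.LowerStmt) (hU' : H337.UpperStmt)
    (hL' : H337.LowerStmt) {A : Set (List Bool) × Set (List Bool)} (hA : A ∈ classQMA) :
    ReducesTo A.1 A.2 := by
  obtain ⟨V, hV, hok, hyes, hno⟩ := compile hA
  exact ⟨fun x => heisCode (V x), PT_heisCode hV (fun x => (hok x).2),
    fun x hx => heisCode_yes hU hU' (hok x).2 (hyes x hx),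
    fun x hx => heisCode_no hL hL' (hok x).2 (hno x hx)⟩

end Vale.Agent.P370.H195
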