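import Vale.Agent.P370.H220.ClockDefs
import Vale.Agent.P370.H337.Defs

/-!
From a list of terms (`H220`) to the coefficients of a logical Hamiltonian (`H337`).
-/

namespace Vale.Agent.P370.H195

open Finset
open Vale.Agent.P370.H220 (Ax Term)
open Vale.Agent.P370.H337 (HL loc ip PM St)

/-- The number of an axis: `I = 0`, `X = 1`, `Z = 2`. -/
def axF : Ax → Fin 3
  | .I => 0
  | .X => 1
  | .Z => 2

variable {κ : Type} [DecidableEq κ]

/-- Contribution of a term to the two-body coefficients. -/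
noncomputable def c1 (t : Term κ) (q q' : κ) (P Q : Fin 3) : ℝ :=
  if q = t.i then (if q' = t.j then (if P = axF t.a then (if Q = axF t.b then
    (if axF t.a ≠ 0 ∧ axF t.b ≠ 0 then t.coef else 0) else 0) else 0) else 0) else 0

/-- Contribution of a term to the coefficient of the axis `P` at the site `q`. -/
noncomputable def h1 (P : Fin 3) (t : Term κ) (q : κ) : ℝ :=
  (if q = t.i then (if axF t.a = P ∧ axF t.b = 0 then t.coef else 0) else 0) +
  (if q = t.j then (if axF t.b = P ∧ axF t.a = 0 then t.coef else 0) else 0)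

/-- Contribution of a term to the constant. -/
noncomputable def k1 (t : Term κ) : ℝ := if axF t.a = 0 ∧ axF t.b = 0 then t.coef else 0

/-- Two-body coefficients of a list. -/
noncomputable def cT (l : List (Term κ)) (q q' : κ) (P Q : Fin 3) : ℝ :=
  (l.map fun t => c1 t q q' P Q).sum
/-- One-body coefficients of a list. -/
noncomputable def hT (P : Fin 3) (l : List (Term κ)) (q : κ) : ℝ := (l.map fun t => h1 P t q).sum
/-- Constant of a list. -/
noncomputable def kT (l : List (Term κ)) : ℝ := (l.map k1).sum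

theorem cT_zero (l : List (Term κ)) (q q' : κ) : cT l q q' 0 0 = 0 := by
  unfold cT
  apply List.sum_eq_zero
  intro x hx
  obtain ⟨t, _, rfl⟩ := List.mem_map.1 hx
  unfold c1
  split_ifs <;> simp_all

variable [Fintype κ]

theorem op_eq_loc (a : Ax) (i : κ) (ψ : (κ → Bool) → ℝ) : a.op i ψ = loc i (PM (axF a)) ψ := by
  funext x
  rw [H337.loc_apply]
  have hu := Function.update_eq_self i x
  rcases a with _ | _ | _ <;>
  rcases hx : x i <;> rw [hx] at hu <;> simp [Ax.op, PM, axF, H220.flp, H220.sg, hx, hu]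

theorem form_term (t : Term κ) (ψ : (κ → Bool) → ℝ) :
    t.form ψ = t.coef * ip ψ (loc t.i (PM (axF t.a)) (loc t.j (PM (axF t.b)) ψ)) := by
  unfold Term.form ip
  rw [op_eq_loc, op_eq_loc]

theorem HL_add (c c' : κ → κ → Fin 3 → Fin 3 → ℝ) (hx hx' hz hz' : κ → ℝ) (ψ : St κ Bool) :
    HL (fun q q' P Q => c q q' P Q + c' q q' P Q) (fun q => hx q + hx' q)
      (fun q => hz q + hz' q) ψ = HL c hx hz ψ + HL c' hx' hz' ψ := by
  unfold HL
  have e1 : ∑ q, ∑ q' ∈ univ.erase q, ∑ P, ∑ Q,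
      (c q q' P Q + c' q q' P Q) * ip ψ (loc q (PM P) (loc q' (PM Q) ψ)) =
      (∑ q, ∑ q' ∈ univ.erase q, ∑ P, ∑ Q,
        c q q' P Q * ip ψ (loc q (PM P) (loc q' (PM Q) ψ))) +
      ∑ q, ∑ q' ∈ univ.erase q, ∑ P, ∑ Q,
        c' q q' P Q * ip ψ (loc q (PM P) (loc q' (PM Q) ψ)) := by
    simp only [add_mul, Finset.sum_add_distrib]
  have e2 : ∑ q, ((hx q + hx' q) * ip ψ (loc q (PM 1) ψ) + (hz q + hz' q) * ip ψ (loc q (PM 2) ψ)) =
      ∑ q, (hx q * ip ψ (loc q (PM 1) ψ) + hz q * ip ψ (loc q (PM 2) ψ)) +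
      ∑ q, (hx' q * ip ψ (loc q (PM 1) ψ) + hz' q * ip ψ (loc q (PM 2) ψ)) := by
    rw [← Finset.sum_add_distrib]
    exact Finset.sum_congr rfl fun q _ => by ring
  rw [e1, e2]
  ring

theorem HL_zero (ψ : St κ Bool) : HL (fun _ _ _ _ => 0) (fun _ => 0) (fun _ => 0) ψ = 0 := by
  simp [HL]

theorem PM_zero : PM 0 = 1 := by
  funext a b
  simp [PM, Matrix.one_apply]

/-- The two-body part of one term. -/
theorem sum_c1 (t : Term κ) (F : κ → κ → Fin 3 → Fin 3 → ℝ) :
    ∑ q, ∑ q' ∈ univ.erase q, ∑ P, ∑ Q, c1 t q q' P Q * F q q' P Q =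
      if t.i ≠ t.j then (if axF t.a ≠ 0 ∧ axF t.b ≠ 0 then t.coef else 0) *
        F t.i t.j (axF t.a) (axF t.b) else 0 := by
  unfold c1
  rw [Finset.sum_eq_single t.i]
  · by_cases hij : t.i = t.j
    · rw [if_neg (show ¬ (t.i ≠ t.j) by simpa using hij)]
      refine Finset.sum_eq_zero fun q' hq' => ?_
      have : q' ≠ t.j := by rw [← hij]; exact Finset.ne_of_mem_erase hq'
      simp [this]
    · rw [if_pos (show t.i ≠ t.j from hij)]
      have hmem : t.j ∈ univ.erase t.i := Finset.mem_erase.2 ⟨Ne.symm hij, mem_univ _⟩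
      rw [Finset.sum_eq_single_of_mem _ hmem]
      · rw [Finset.sum_eq_single (axF t.a)]
        · rw [Finset.sum_eq_single (axF t.b)]
          · simp
          · intro Q _ hQ; simp [hQ]
          · simp
        · intro P _ hP; simp [hP]
        · simp
      · intro q' _ hq'; simp [hq']
  · intro q _ hq; simp [hq]
  · simp

theorem sum_h1 (P : Fin 3) (t : Term κ) (F : κ → ℝ) :
    ∑ q, h1 P t q * F q =
      (if axF t.a = P ∧ axF t.b = 0 then t.coef else 0) * F t.i +
      (if axF t.b = P ∧ axF t.a = 0 then t.coef else 0) * F t.j := by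
  unfold h1
  simp only [add_mul, Finset.sum_add_distrib, ite_mul, zero_mul]
  simp

theorem fin3 (x : Fin 3) : x = 0 ∨ x = 1 ∨ x = 2 := by
  fin_cases x <;> simp

/-- One term. -/
theorem form_one (t : Term κ) (ht : t.a = .I ∨ t.b = .I ∨ t.i ≠ t.j) (ψ : (κ → Bool) → ℝ) :
    t.form ψ = k1 t * H220.sq ψ + HL (c1 t) (h1 1 t) (h1 2 t) ψ := by
  rw [form_term]
  have hsq : ip ψ ψ = H220.sq ψ := by
    unfold ip H220.sq
    exact Finset.sum_congr rfl fun _ _ => (sq _).symm
  unfold HL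
  rw [Finset.sum_add_distrib, sum_c1, sum_h1, sum_h1]
  have h0 : ∀ i, loc i (PM 0) ψ = ψ := fun i => by rw [PM_zero]; exact H337.loc_one i ψ
  have h0' : ∀ i (φ : St κ Bool), loc i (PM 0) φ = φ := fun i φ => by
    rw [PM_zero]; exact H337.loc_one i φ
  unfold k1
  rcases ha : t.a with _ | _ | _ <;> rcases hb : t.b with _ | _ | _ <;>
  simp only [axF, h0', hsq] <;> simp <;>
  simp [ha, hb] at ht <;> simp [ht]

/-- A list of terms. -/
theorem form_list (l : List (Term κ)) (hl : ∀ t ∈ l, t.a = .I ∨ t.b = .I ∨ t.i ≠ t.j)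
    (ψ : (κ → Bool) → ℝ) :
    H220.form l ψ = kT l * H220.sq ψ + HL (cT l) (hT 1 l) (hT 2 l) ψ := by
  induction l with
  | nil =>
    have : HL (cT ([] : List (Term κ))) (hT 1 []) (hT 2 []) ψ = 0 := HL_zero (κ := κ) ψ
    rw [this]
    simp [H220.form, kT]
  | cons t l ih =>
    have h1' := form_one t (hl t (List.mem_cons_self)) ψ
    have h2' := ih fun t' ht' => hl t' (List.mem_cons_of_mem _ ht')
    have e : HL (cT (t :: l)) (hT 1 (t :: l)) (hT 2 (t :: l)) ψ =
        HL (c1 t) (h1 1 t) (h1 2 t) ψ + HL (cT l) (hT 1 l) (hT 2 l) ψ := by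
      rw [← HL_add]
      rfl
    unfold H220.form at h2' ⊢
    rw [List.map_cons, List.sum_cons, h1', h2', e]
    unfold kT
    rw [List.map_cons, List.sum_cons]
    ring

end Vale.Agent.P370.H195
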