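import Vale.Agent.P370.H220.ClockDefs
import Vale.Agent.P370.H195.ApxPT

/-!
The list of terms of the clock Hamiltonian, in natural numbers, and its computation.
-/

namespace Vale.Agent.P370.H195

open Vale.Agent.Lib.PolyTime
open Vale.Agent.P370.H220 (Ax Term Step tI tZ tZZ tPP tFlip stepTerms orderTerms stepsTerms hamW ham
  TT W1 W2 W3 KK)

/-- A term in natural numbers: sign (`true` = minus), eight times the weight, angle; first site
and axis; second site and axis. The axes are `0 = I`, `1 = X`, `2 = Z`. -/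
abbrev TN : Type := (Bool × ℕ × ℕ) × (ℕ × ℕ) × (ℕ × ℕ)

/-- The axis with a given number. -/
def axN (a : ℕ) : Ax := if a = 0 then .I else if a = 1 then .X else .Z

/-- The sign. -/
def sgQ (s : Bool) : ℚ := if s then -1 else 1

/-- The term with a given code. -/
def dec (t : TN) : Term ℕ :=
  ⟨sgQ t.1.1 * t.1.2.1 / 8, t.1.2.2, t.2.1.1, axN t.2.1.2, t.2.2.1, axN t.2.2.2⟩

/-- A step in natural numbers. -/
abbrev SN : Type := ℕ × Option (ℕ × ℕ) × Option (ℕ × ℕ)

/-- The step with a given code. -/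
def decS (g : SN) : Step ℕ := ⟨g.1, g.2.1, g.2.2⟩

/-- `± c * 1` -/
def tIN (s : Bool) (c i : ℕ) : TN := ((s, c, 0), (i, 0), (i, 0))
/-- `± c * Z_i` -/
def tZN (s : Bool) (c i : ℕ) : TN := ((s, c, 0), (i, 2), (i, 0))
/-- `± c * Z_i Z_j` -/
def tZZN (s : Bool) (c i j : ℕ) : TN := ((s, c, 0), (i, 2), (j, 2))

/-- `± c (1 ± Z_i) (1 ± Z_j)` -/
def tPPN (s : Bool) (c : ℕ) (σ τ : Bool) (i j : ℕ) : List TN :=
  [tIN s c i, tZN (s.xor σ) c i, tZN (s.xor τ) c j, tZZN (s.xor (σ.xor τ)) c i j]

/-- the transfer term -/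
def tFlipN (c k : ℕ) (w : Option (ℕ × ℕ)) : List TN :=
  match w with
  | none => [((true, c, 0), (k, 1), (k, 0))]
  | some p => [((true, c, p.2), (k, 1), (p.1, 2)), ((true, c, p.2 + 12), (k, 1), (p.1, 1))]

/-- the terms of a step; `L1`, `L2` are the weights -/
def stepTermsN (L1 L2 n j : ℕ) (g : SN) : List TN :=
  [tIN false (4 * L1) g.1, tZZN true (4 * L1) (n + 2 * j) (n + 2 * j + 1),
    tZZN false (4 * L1) (n + 2 * j) g.1, tZZN true (4 * L1) (n + 2 * j + 1) g.1] ++
  tFlipN (4 * L2) (n + 2 * j) g.2.1 ++ tFlipN (4 * L2) (n + 2 * j + 1) g.2.2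

/-- the ordering terms -/
def orderTermsN (L1 n j : ℕ) : List TN :=
  tPPN false (2 * L1) false true (n + 2 * j) (n + 2 * (j + 1)) ++
  tPPN false (2 * L1) false true (n + 2 * j) (n + 2 * (j + 1) + 1) ++
  tPPN false (2 * L1) false true (n + 2 * j + 1) (n + 2 * (j + 1)) ++
  tPPN false (2 * L1) false true (n + 2 * j + 1) (n + 2 * (j + 1) + 1)

/-- the padded circuit -/
def padN (out : ℕ) (L : List SN) : List SN := (out, none, none) :: (L ++ [(out, none, none)])

/-- the terms of the clock Hamiltonian -/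
def hamWN (L1 L2 L3 n : ℕ) (anc : List ℕ) (out : ℕ) (L : List SN) : List TN :=
  ((padN out L).zipIdx.flatMap fun p => stepTermsN L1 L2 n p.2 p.1) ++
  ((List.range (L.length + 1)).flatMap fun j => orderTermsN L1 n j) ++
  (tIN false (8 * L2) out :: tPPN true L2 false false n (n + 1)) ++
  tPPN true L2 true true (n + 2 * (L.length + 1)) (n + 2 * (L.length + 1) + 1) ++
  (anc.flatMap fun i => tPPN false (2 * L3) false true n i) ++
  tPPN false 2 true false (n + 2 * (L.length + 1) + 1) out

/-- clock bits -/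
def cA (n j : ℕ) : ℕ := n + 2 * j
/-- clock bits -/
def cB (n j : ℕ) : ℕ := n + 2 * j + 1

theorem sgQ_xor (s t : Bool) : sgQ (s.xor t) = sgQ s * sgQ t := by
  cases s <;> cases t <;> norm_num [sgQ]

theorem dec_tPPN (s : Bool) (c : ℕ) (σ τ : Bool) (i j : ℕ) :
    (tPPN s c σ τ i j).map dec = tPP (sgQ s * c / 8) (sgQ σ) (sgQ τ) i j := by
  simp only [tPPN, List.map_cons, List.map_nil, tPP, tIN, tZN, tZZN, dec, axN, tI, tZ, tZZ, sgQ_xor]
  norm_num
  refine ⟨?_, ?_, ?_⟩ <;> ring

theorem dec_tFlipN (c k : ℕ) (w : Option (ℕ × ℕ)) :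
    (tFlipN c k w).map dec = tFlip ((c : ℚ) / 8) k w := by
  cases w with
  | none =>
    simp only [tFlipN, List.map_cons, List.map_nil, tFlip, dec, axN, sgQ]
    norm_num
    ring
  | some p =>
    obtain ⟨p1, p2⟩ := p
    simp only [tFlipN, List.map_cons, List.map_nil, tFlip, dec, axN, sgQ]
    norm_num
    ring

theorem dec_stepTermsN (L1 L2 n j : ℕ) (g : SN) :
    (stepTermsN L1 L2 n j g).map dec = stepTerms (L1 : ℚ) L2 (cA n) (cB n) j (decS g) := by
  unfold stepTermsN stepTerms
  simp only [List.map_append, dec_tFlipN]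
  have e1 : (((4 * L2 : ℕ) : ℚ)) / 8 = (L2 : ℚ) / 2 := by push_cast; ring
  rw [e1]
  congr 1
  congr 1
  simp only [List.map_cons, List.map_nil, dec, tIN, tZZN, axN, sgQ, tI, tZZ, decS, cA, cB]
  push_cast
  norm_num
  refine ⟨?_, ?_, ?_, ?_⟩ <;> ring

theorem dec_orderTermsN (L1 n j : ℕ) :
    (orderTermsN L1 n j).map dec = orderTerms (L1 : ℚ) (cA n) (cB n) j := by
  unfold orderTermsN orderTerms
  simp only [List.map_append, dec_tPPN]
  have e1 : sgQ false * ((2 * L1 : ℕ) : ℚ) / 8 = (L1 : ℚ) / 4 := by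
    unfold sgQ; push_cast; norm_num; ring
  have e2 : sgQ false = 1 := by simp [sgQ]
  have e3 : sgQ true = -1 := by simp [sgQ]
  rw [e1, e2, e3]
  rfl

/-- The two orders of the terms of the steps. -/
theorem stepsTerms_perm (L1 L2 : ℚ) (ca cb : ℕ → ℕ) (L : List (Step ℕ)) (j : ℕ) :
    (stepsTerms L1 L2 ca cb j L).Perm
      (((L.zipIdx j).flatMap fun p => stepTerms L1 L2 ca cb p.2 p.1) ++
        ((List.range' j (L.length - 1)).flatMap fun i => orderTerms L1 ca cb i)) := by
  induction L generalizing j with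
  | nil => simp [stepsTerms]
  | cons g L ih =>
    cases L with
    | nil => simp [stepsTerms]
    | cons g' L =>
      have h := ih (j + 1)
      rw [stepsTerms]
      have e1 : (g :: g' :: L).length - 1 = ((g' :: L).length - 1) + 1 := by simp
      rw [e1, List.range'_succ, List.zipIdx_cons, List.flatMap_cons, List.flatMap_cons]
      have h2 : (stepTerms L1 L2 ca cb j g ++ orderTerms L1 ca cb j ++
          stepsTerms L1 L2 ca cb (j + 1) (g' :: L)).Perm
          (stepTerms L1 L2 ca cb j g ++ orderTerms L1 ca cb j ++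
          ((((g' :: L).zipIdx (j + 1)).flatMap fun p => stepTerms L1 L2 ca cb p.2 p.1) ++
        ((List.range' (j + 1) ((g' :: L).length - 1)).flatMap fun i => orderTerms L1 ca cb i))) :=
        List.Perm.append_left _ h
      refine h2.trans ?_
      simp only [List.append_assoc]
      refine List.Perm.append_left _ ?_
      rw [← List.append_assoc, ← List.append_assoc]
      exact List.Perm.append_right _ List.perm_append_comm

theorem pad_decS (out : ℕ) (L : List SN) :
    H220.pad out (L.map decS) = (padN out L).map decS := by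
  simp [H220.pad, padN, decS]

/-- The natural number version computes the terms of the clock Hamiltonian, up to order. -/
theorem dec_hamWN (L1 L2 L3 n : ℕ) (anc : List ℕ) (out : ℕ) (L : List SN) :
    ((hamWN L1 L2 L3 n anc out L).map dec).Perm
      (hamW (L1 : ℚ) L2 L3 (cA n) (cB n) anc out (L.map decS)) := by
  unfold hamWN hamW
  simp only [List.map_append, List.map_cons, dec_tPPN, List.map_flatMap, dec_stepTermsN,
    dec_orderTermsN, List.length_map]
  have e2 : sgQ false = 1 := by simp [sgQ]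
  have e3 : sgQ true = -1 := by simp [sgQ]
  have h1 := stepsTerms_perm (L1 : ℚ) L2 (cA n) (cB n) (H220.pad out (L.map decS)) 0
  have h2 : (((H220.pad out (L.map decS)).zipIdx 0).flatMap fun p =>
      stepTerms (L1 : ℚ) L2 (cA n) (cB n) p.2 p.1) =
      ((padN out L).zipIdx.flatMap fun p => stepTerms (L1 : ℚ) L2 (cA n) (cB n) p.2 (decS p.1)) := by
    rw [pad_decS, List.zipIdx_map, List.flatMap_map]
    rfl
  have h3 : List.range' 0 ((H220.pad out (L.map decS)).length - 1) = List.range (L.length + 1) := by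
    rw [List.range_eq_range']
    congr 1
    simp [H220.pad]
  rw [h2, h3] at h1
  have h1' := h1.symm
  refine List.Perm.append ?_ ?_
  · refine List.Perm.append ?_ ?_
    · refine List.Perm.append ?_ ?_
      · refine List.Perm.append h1' ?_
        rw [e2, e3]
        have : dec (tIN false (8 * L2) out) = tI (L2 : ℚ) out := by
          simp only [dec, tIN, tI, axN, sgQ]
          push_cast
          norm_num
        rw [this]
        have e4 : (-1 : ℚ) * (L2 : ℚ) / 8 = -((L2 : ℚ) / 8) := by ring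
        rw [e4]
        rfl
      · rw [e3]
        have e4 : (-1 : ℚ) * (L2 : ℚ) / 8 = -((L2 : ℚ) / 8) := by ring
        rw [e4]
        rfl
    · rw [e2, e3]
      have e4 : (1 : ℚ) * ((2 * L3 : ℕ) : ℚ) / 8 = (L3 : ℚ) / 4 := by push_cast; ring
      rw [e4]
      rfl
  · rw [e2, e3]
    have e4 : (1 : ℚ) * ((2 : ℕ) : ℚ) / 8 = 1 / 4 := by norm_num
    rw [e4]
    rfl

end Vale.Agent.P370.H195
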