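import Vale.Agent.P370.H195.TermN

/-!
The list of the terms of the clock Hamiltonian is computable in polynomial time.
-/

namespace Vale.Agent.P370.H195

open Vale.Agent.Lib.PolyTime

variable {A : Set Word} {α : Type} [Enc α]

theorem PT_tIN (s : Bool) {c i : α → ℕ} (hc : PT A c) (hi : PT A i) :
    PT A (fun a => tIN s (c a) (i a)) :=
  PT.pair (PT.pair (PT.const s) (PT.pair hc (PT.const 0))) (PT.pair (PT.pair hi (PT.const 0))
    (PT.pair hi (PT.const 0)))

theorem PT_tZN (s : Bool) {c i : α → ℕ} (hc : PT A c) (hi : PT A i) :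
    PT A (fun a => tZN s (c a) (i a)) :=
  PT.pair (PT.pair (PT.const s) (PT.pair hc (PT.const 0))) (PT.pair (PT.pair hi (PT.const 2))
    (PT.pair hi (PT.const 0)))

theorem PT_tZZN (s : Bool) {c i j : α → ℕ} (hc : PT A c) (hi : PT A i) (hj : PT A j) :
    PT A (fun a => tZZN s (c a) (i a) (j a)) :=
  PT.pair (PT.pair (PT.const s) (PT.pair hc (PT.const 0))) (PT.pair (PT.pair hi (PT.const 2))
    (PT.pair hj (PT.const 2)))

theorem PT_tPPN (s σ τ : Bool) {c i j : α → ℕ} (hc : PT A c) (hi : PT A i) (hj : PT A j) :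
    PT A (fun a => tPPN s (c a) σ τ (i a) (j a)) :=
  PT.cons (PT_tIN s hc hi) (PT.cons (PT_tZN _ hc hi) (PT.cons (PT_tZN _ hc hj)
    (PT.cons (PT_tZZN _ hc hi hj) (PT.const []))))

theorem PT_tFlipN {c k : α → ℕ} {w : α → Option (ℕ × ℕ)} (hc : PT A c) (hk : PT A k)
    (hw : PT A w) : PT A (fun a => tFlipN (c a) (k a) (w a)) := by
  have h1 : PT A (fun a => [((true, c a, 0), (k a, 1), (k a, 0))]) :=
    PT.cons (PT.pair (PT.pair (PT.const true) (PT.pair hc (PT.const 0)))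
      (PT.pair (PT.pair hk (PT.const 1)) (PT.pair hk (PT.const 0)))) (PT.const [])
  have hc' : PT A (fun q : α × (ℕ × ℕ) => c q.1) := hc.comp PT.fst'
  have hk' : PT A (fun q : α × (ℕ × ℕ) => k q.1) := hk.comp PT.fst'
  have hp : PT A (fun q : α × (ℕ × ℕ) => q.2) := PT.snd'
  have h2 : PT A (fun q : α × (ℕ × ℕ) => [((true, c q.1, q.2.2), (k q.1, 1), (q.2.1, 2)),
      ((true, c q.1, q.2.2 + 12), (k q.1, 1), (q.2.1, 1))]) :=
    PT.cons (PT.pair (PT.pair (PT.const true) (PT.pair hc' hp.snd))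
      (PT.pair (PT.pair hk' (PT.const 1)) (PT.pair hp.fst (PT.const 2))))
    (PT.cons (PT.pair (PT.pair (PT.const true) (PT.pair hc' (hp.snd.add (PT.const 12))))
      (PT.pair (PT.pair hk' (PT.const 1)) (PT.pair hp.fst (PT.const 1)))) (PT.const []))
  refine (PT.optCase (g := fun a (p : ℕ × ℕ) => [((true, c a, p.2), (k a, 1), (p.1, 2)),
      ((true, c a, p.2 + 12), (k a, 1), (p.1, 1))]) hw h1 h2).congr fun a => ?_
  unfold tFlipN
  cases w a <;> rfl

theorem PT_stepTermsN {L1 L2 n j : α → ℕ} {g : α → SN} (hL1 : PT A L1) (hL2 : PT A L2)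
    (hn : PT A n) (hj : PT A j) (hg : PT A g) :
    PT A (fun a => stepTermsN (L1 a) (L2 a) (n a) (j a) (g a)) := by
  have h4 : PT A (fun a => 4 * L1 a) := (PT.const 4).mul hL1
  have h4' : PT A (fun a => 4 * L2 a) := (PT.const 4).mul hL2
  have ha : PT A (fun a => n a + 2 * j a) := hn.add ((PT.const 2).mul hj)
  have hb : PT A (fun a => n a + 2 * j a + 1) := ha.add (PT.const 1)
  exact PT.append (PT.append (PT.cons (PT_tIN _ h4 hg.fst) (PT.cons (PT_tZZN _ h4 ha hb)
    (PT.cons (PT_tZZN _ h4 ha hg.fst) (PT.cons (PT_tZZN _ h4 hb hg.fst) (PT.const [])))))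
    (PT_tFlipN h4' ha hg.snd.fst)) (PT_tFlipN h4' hb hg.snd.snd)

theorem PT_orderTermsN {L1 n j : α → ℕ} (hL1 : PT A L1) (hn : PT A n) (hj : PT A j) :
    PT A (fun a => orderTermsN (L1 a) (n a) (j a)) := by
  have h2 : PT A (fun a => 2 * L1 a) := (PT.const 2).mul hL1
  have ha : PT A (fun a => n a + 2 * j a) := hn.add ((PT.const 2).mul hj)
  have hb : PT A (fun a => n a + 2 * j a + 1) := ha.add (PT.const 1)
  have ha' : PT A (fun a => n a + 2 * (j a + 1)) :=
    hn.add ((PT.const 2).mul (hj.add (PT.const 1)))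
  have hb' : PT A (fun a => n a + 2 * (j a + 1) + 1) := ha'.add (PT.const 1)
  exact PT.append (PT.append (PT.append (PT_tPPN _ _ _ h2 ha ha') (PT_tPPN _ _ _ h2 ha hb'))
    (PT_tPPN _ _ _ h2 hb ha')) (PT_tPPN _ _ _ h2 hb hb')

theorem PT_hamWN {L1 L2 L3 n out : α → ℕ} {anc : α → List ℕ} {L : α → List SN} (hL1 : PT A L1)
    (hL2 : PT A L2) (hL3 : PT A L3) (hn : PT A n) (hanc : PT A anc) (hout : PT A out)
    (hL : PT A L) :
    PT A (fun a => hamWN (L1 a) (L2 a) (L3 a) (n a) (anc a) (out a) (L a)) := by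
  have hpad : PT A (fun a => padN (out a) (L a)) := by
    have h1 : PT A (fun a => ((out a, none, none) : SN)) :=
      hout.pair (PT.const ((none, none) : Option (ℕ × ℕ) × Option (ℕ × ℕ)))
    exact PT.cons h1 (PT.append hL (PT.cons h1 (PT.const [])))
  have hlen : PT A (fun a => (L a).length + 1) := hL.length.add (PT.const 1)
  have hlenb : PBd (fun a => (L a).length + 1) := (PBd.length hL).add (PBd.const 1)
  have hlast : PT A (fun a => n a + 2 * ((L a).length + 1)) := hn.add ((PT.const 2).mul hlen)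
  unfold hamWN
  refine PT.append (PT.append (PT.append (PT.append (PT.append ?_ ?_) ?_) ?_) ?_) ?_
  · refine PT.flatMap (f := fun a (p : SN × ℕ) => stepTermsN (L1 a) (L2 a) (n a) p.2 p.1)
      (PT.zipIdx hpad) ?_
    exact PT_stepTermsN (hL1.comp PT.fst') (hL2.comp PT.fst') (hn.comp PT.fst') PT.snd'.snd
      PT.snd'.fst
  · refine PT.flatMap (f := fun a (j : ℕ) => orderTermsN (L1 a) (n a) j)
      (PT.range hlen hlenb) ?_
    exact PT_orderTermsN (hL1.comp PT.fst') (hn.comp PT.fst') PT.snd'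
  · exact PT.cons (PT_tIN _ ((PT.const 8).mul hL2) hout)
      (PT_tPPN _ _ _ hL2 hn (hn.add (PT.const 1)))
  · exact PT_tPPN _ _ _ hL2 hlast (hlast.add (PT.const 1))
  · refine PT.flatMap (f := fun a (i : ℕ) => tPPN false (2 * L3 a) false true (n a) i) hanc ?_
    exact PT_tPPN _ _ _ ((PT.const 2).mul (hL3.comp PT.fst')) (hn.comp PT.fst') PT.snd'
  · exact PT_tPPN _ _ _ (PT.const 2) (hlast.add (PT.const 1)) hout

end Vale.Agent.P370.H195
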