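import Vale.Agent.P370.H195.Coupl

/-!
The Heisenberg form of `H337` and the form of `HeisDefs`.
-/

namespace Vale.Agent.P370.H195

open Finset
open Vale.Agent.P370.Heis
open Vale.Agent.P370.H337 (JJ ww gg third hsw)

/-! ### Symmetry of the couplings -/

section Sym
theorem third_comm : ∀ i j : Fin 3, third i j = third j i := by decide

theorem ww_comm {κ : Type} (c : κ → κ → Fin 3 → Fin 3 → ℝ) (q q' : κ) (i j : Fin 3) :
    ww c q q' i j = ww c q' q j i := by
  unfold ww
  congr 1
  rw [Finset.sum_comm]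
  refine Finset.sum_congr rfl fun P _ => Finset.sum_congr rfl fun Q _ => ?_
  ring

theorem JJ_comm {κ : Type} [DecidableEq κ] (c : κ → κ → Fin 3 → Fin 3 → ℝ) (hx hz : κ → ℝ) (B L J0 : ℝ)
    (p p' : Option κ × Fin 3) : JJ c hx hz B L J0 p p' = JJ c hx hz B L J0 p' p := by
  obtain ⟨_ | q, i⟩ := p <;> obtain ⟨_ | q', j⟩ := p'
  · rfl
  · rfl
  · rfl
  · simp only [JJ]
    by_cases h : q = q'
    · subst h
      rw [if_pos rfl, if_pos rfl, third_comm]
    · rw [if_neg h, if_neg (Ne.symm h), ww_comm]

end Sym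

/-! ### Relabelling of the sites -/

section Relabel
variable {α : Type} [Fintype α] [DecidableEq α] {n : ℕ}

/-- The state with relabelled sites. -/
def relab (e : Fin n ≃ α) (χ : (α → Bool) → ℝ) : (Fin n → Bool) → ℝ := fun s => χ (s ∘ e.symm)

theorem nsq_relab (e : Fin n ≃ α) (χ : (α → Bool) → ℝ) : nsq (relab e χ) = ∑ s, χ s ^ 2 := by
  unfold nsq relab
  exact Equiv.sum_comp (Equiv.arrowCongr e (Equiv.refl Bool)) (fun s => χ s ^ 2)

theorem swapSum_relab (e : Fin n ≃ α) (χ : (α → Bool) → ℝ) (a b : Fin n) :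
    swapSum a b (relab e χ) = ∑ s, χ s * χ (s ∘ Equiv.swap (e a) (e b)) := by
  unfold swapSum relab
  rw [← Equiv.sum_comp (Equiv.arrowCongr e (Equiv.refl Bool))
    (fun s => χ s * χ (s ∘ Equiv.swap (e a) (e b)))]
  refine Finset.sum_congr rfl fun s _ => ?_
  have h1 : (Equiv.arrowCongr e (Equiv.refl Bool)) s = s ∘ e.symm := rfl
  rw [h1]
  congr 2
  funext x
  simp only [Function.comp]
  congr 1
  by_cases hxa : x = e a
  · subst hxa
    simp
  · by_cases hxb : x = e b
    · subst hxb
      simp
    · rw [Equiv.swap_apply_of_ne_of_ne hxa hxb, Equiv.swap_apply_of_ne_of_ne]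
      · intro h; exact hxa (by rw [← h]; simp)
      · intro h; exact hxb (by rw [← h]; simp)

theorem relab_surj (e : Fin n ≃ α) (χ : (Fin n → Bool) → ℝ) :
    relab e (fun s => χ (s ∘ e)) = χ := by
  funext s
  unfold relab
  have h : (s ∘ ⇑e.symm) ∘ ⇑e = s := by funext x; simp
  exact congrArg χ h

/-- The sum over ordered pairs, and over pairs `a < b`. -/
theorem hsw_relab (e : Fin n ≃ α) (J : α → α → ℝ) (hJ : ∀ p p', J p p' = J p' p)
    (χ : (α → Bool) → ℝ) :
    hsw J χ = hsForm (fun a b => J (e a) (e b)) (relab e χ) := by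
  have hS : ∀ a b : Fin n, swapSum a b (relab e χ) = swapSum b a (relab e χ) := by
    intro a b
    unfold swapSum
    rw [Equiv.swap_comm]
  set F : Fin n → Fin n → ℝ := fun a b => J (e a) (e b) * swapSum a b (relab e χ) with hF
  have hFs : ∀ a b, F a b = F b a := fun a b => by
    simp only [hF]; rw [hJ, hS]
  have e1 : hsw J χ = 1 / 2 * ∑ a, ∑ b, if a ≠ b then F a b else 0 := by
    unfold hsw
    congr 1
    rw [← Equiv.sum_comp e]
    refine Finset.sum_congr rfl fun a _ => ?_
    rw [← Finset.sum_filter]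
    have hmap : univ.erase (e a) = (univ.filter fun b => a ≠ b).map e.toEmbedding := by
      ext p
      simp only [mem_erase, mem_univ, and_true, mem_map, mem_filter, true_and,
        Equiv.coe_toEmbedding]
      constructor
      · intro h
        exact ⟨e.symm p, fun h' => h (by rw [h']; simp), by simp⟩
      · rintro ⟨b, hb, rfl⟩
        exact fun h => hb (e.injective h).symm
    rw [hmap, Finset.sum_map]
    refine Finset.sum_congr rfl fun b _ => ?_
    simp only [hF, Equiv.coe_toEmbedding]
    rw [swapSum_relab]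
  rw [e1]
  have e2 : ∑ a, ∑ b, (if a ≠ b then F a b else 0) =
      ∑ a, ∑ b, ((if a < b then F a b else 0) + (if b < a then F a b else 0)) := by
    refine Finset.sum_congr rfl fun a _ => Finset.sum_congr rfl fun b _ => ?_
    rcases lt_trichotomy a b with h | h | h
    · rw [if_pos h.ne, if_pos h, if_neg h.asymm, add_zero]
    · subst h
      simp
    · rw [if_pos h.ne', if_pos h, if_neg h.asymm, zero_add]
  have e3 : ∑ a, ∑ b, (if b < a then F a b else 0) = ∑ a, ∑ b, (if a < b then F a b else 0) := by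
    rw [Finset.sum_comm]
    refine Finset.sum_congr rfl fun a _ => Finset.sum_congr rfl fun b _ => ?_
    rw [hFs]
  rw [e2]
  simp only [Finset.sum_add_distrib]
  rw [e3]
  unfold hsForm
  simp only [hF]
  ring

end Relabel

end Vale.Agent.P370.H195
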